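import Vale.Agent.P128.H261.Int

open MeasureTheory Set Metric Filter
open scoped ENNReal NNReal Topology

namespace Vale.Agent.P128.H261

variable {S K : Set ℂ} {G : ℂ → ℂ} {x : ℂ} {R B b p : ℝ}

/-- The measure with density a negative power of the distance to `K`. -/
noncomputable def dmu (S K : Set ℂ) (q : ℝ) : Measure ℂ :=
  (volume.restrict S).withDensity fun z => ENNReal.ofReal (infDist z K ^ (-q))

theorem measurable_dens (K : Set ℂ) (q : ℝ) :
    Measurable fun z : ℂ => ENNReal.ofReal (infDist z K ^ (-q)) :=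
  (measurable_infDist.pow_const _).ennreal_ofReal

theorem dmu_ball (S K : Set ℂ) (q : ℝ) (x : ℂ) (r : ℝ) : dmu S K q (ball x r) =
    ∫⁻ z in S ∩ ball x r, ENNReal.ofReal (infDist z K ^ (-q)) := by
  rw [dmu, withDensity_apply _ measurableSet_ball, Measure.restrict_restrict measurableSet_ball,
    inter_comm]

/-- the basic inequality -/
theorem lintegral_le_dmu (hS : S ⊆ ball x R) (hSm : MeasurableSet S) (hB : 0 < B)
    (hp : 0 < p) (hxS : x ∉ S)
    (hG : ∀ z ∈ S, ‖G z‖ ≤ B * (infDist z K ^ (-(1 / 10) : ℝ) * dist z x ^ (-b))) (hpb : 0 ≤ b)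
    {T : Set ℂ} (hT : MeasurableSet T) :
    ∫⁻ z in S ∩ T, ‖G z‖ₑ ^ p ≤ ENNReal.ofReal (B ^ p) *
      ∫⁻ z in ball x R ∩ T, edist z x ^ (-(p * b)) ∂(dmu S K (p / 10)) := by
  have m1 := measurable_dens K (p / 10)
  have m2 : Measurable fun z : ℂ => edist z x ^ (-(p * b)) :=
    (measurable_id.edist measurable_const).pow_const _
  have h1 : ∫⁻ z in ball x R ∩ T, edist z x ^ (-(p * b)) ∂(dmu S K (p / 10)) =
      ∫⁻ z in S ∩ T, ENNReal.ofReal (infDist z K ^ (-(p / 10))) * edist z x ^ (-(p * b)) := by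
    rw [dmu, restrict_withDensity (measurableSet_ball.inter hT),
      Measure.restrict_restrict (measurableSet_ball.inter hT),
      lintegral_withDensity_eq_lintegral_mul _ m1 m2]
    congr 2
    ext z
    exact ⟨fun h => ⟨h.2, h.1.2⟩, fun h => ⟨⟨hS h.1, h.2⟩, h.1⟩⟩
  rw [h1, ← lintegral_const_mul' _ _ ENNReal.ofReal_ne_top]
  refine setLIntegral_mono' (hSm.inter hT) fun z hz => ?_
  have hzx : 0 < dist z x := dist_pos.2 fun hh => hxS (hh ▸ hz.1)
  have hd : 0 ≤ infDist z K := infDist_nonneg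
  have h2 : ‖G z‖ₑ ^ p ≤ ENNReal.ofReal (B ^ p) *
      (ENNReal.ofReal (infDist z K ^ (-(p / 10))) * ENNReal.ofReal (dist z x ^ (-(p * b)))) := by
    rw [← ofReal_norm, ENNReal.ofReal_rpow_of_nonneg (norm_nonneg _) hp.le,
      ← ENNReal.ofReal_mul (by positivity), ← ENNReal.ofReal_mul (by positivity)]
    refine ENNReal.ofReal_le_ofReal ((Real.rpow_le_rpow (norm_nonneg _) (hG z hz.1) hp.le).trans
      (le_of_eq ?_))
    rw [Real.mul_rpow hB.le (by positivity), Real.mul_rpow (by positivity) (by positivity),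
      ← Real.rpow_mul hd, ← Real.rpow_mul dist_nonneg]
    congr 3 <;> ring
  refine h2.trans ?_
  gcongr
  exact edist_rpow_neg_ge hzx (by positivity) le_rfl

theorem memLp_of_bound (hS : S ⊆ ball x R) (hSm : MeasurableSet S) (hR : 0 < R) (hB : 0 < B)
    (hp : 0 < p) (hxS : x ∉ S) (hGm : Measurable G)
    (hG : ∀ z ∈ S, ‖G z‖ ≤ B * (infDist z K ^ (-(1 / 10) : ℝ) * dist z x ^ (-b))) (hb : 0 ≤ b)
    (hpb : p * b < 2 - p / 10)
    (hint : ∃ C : ℝ≥0∞, C < ⊤ ∧ ∀ r, 0 < r → r ≤ R →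
      ∫⁻ z in S ∩ ball x r, ENNReal.ofReal (infDist z K ^ (-(p / 10))) ≤
        C * ENNReal.ofReal (r ^ (2 - p / 10))) :
    MemLp G (ENNReal.ofReal p) (volume.restrict S) := by
  obtain ⟨C, hC, hint⟩ := hint
  refine ⟨hGm.aestronglyMeasurable, ?_⟩
  rw [eLpNorm_lt_top_iff_lintegral_rpow_enorm_lt_top (by simpa using hp) ENNReal.ofReal_ne_top,
    ENNReal.toReal_ofReal hp.le]
  have h1 := lintegral_le_dmu (K := K) hS hSm hB hp hxS hG hb MeasurableSet.univ
  rw [inter_univ, inter_univ] at h1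
  refine h1.trans_lt (ENNReal.mul_lt_top ENNReal.ofReal_lt_top ?_)
  refine (lintegral_edist_rpow_le (m := 2 - p / 10) (C := C) hR (by positivity) hpb hC.ne
    fun r hr hrR => ?_).trans_lt (const_lt_top hpb hC.ne)
  rw [dmu_ball]
  exact hint r hr hrR

theorem weak_of_bound (hS : S ⊆ ball x R) (hSm : MeasurableSet S) (hR : 0 < R) (hB : 0 < B)
    (hxS : x ∉ S) (hGm : Measurable G)
    (hG : ∀ z ∈ S, ‖G z‖ ≤ B * (infDist z K ^ (-(1 / 10) : ℝ) * dist z x ^ (-(2 / 5) : ℝ)))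
    (hint : ∃ C : ℝ≥0∞, C < ⊤ ∧ ∀ r, 0 < r → r ≤ R →
      ∫⁻ z in S ∩ ball x r, ENNReal.ofReal (infDist z K ^ (-((5 : ℝ) / 10))) ≤
        C * ENNReal.ofReal (r ^ (2 - (5 : ℝ) / 10))) :
    ∃ A : ℝ≥0∞, A < ⊤ ∧ ∀ t : ℝ, 0 < t →
      volume {z ∈ S | t < ‖G z‖} ≤ A * ENNReal.ofReal (t ^ 4)⁻¹ := by
  obtain ⟨C, hC, hint⟩ := hint
  set J : ℝ≥0∞ := (1 - ENNReal.ofReal ((1 / 2) ^ ((2 : ℝ) - (2 - 5 / 10))))⁻¹ with hJ
  have hJt : J < ⊤ := const_outer_lt_top (by norm_num)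
  refine ⟨ENNReal.ofReal Real.pi + ENNReal.ofReal (B ^ (5 : ℝ)) *
    (C * ENNReal.ofReal (2 ^ ((2 : ℝ) - 5 / 10)) * J), ?_, ?_⟩
  · exact ENNReal.add_lt_top.2 ⟨ENNReal.ofReal_lt_top, ENNReal.mul_lt_top ENNReal.ofReal_lt_top
      (ENNReal.mul_lt_top (ENNReal.mul_lt_top hC ENNReal.ofReal_lt_top) hJt)⟩
  intro t ht
  set Λ : ℝ := (t ^ 2)⁻¹ with hΛ
  have hΛ0 : 0 < Λ := by positivity
  set E : Set ℂ := {z ∈ S | t < ‖G z‖} \ ball x Λ with hE
  have hEm : MeasurableSet E := (hSm.inter (measurableSet_lt measurable_const hGm.norm)).diff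
    measurableSet_ball
  have h1 : volume {z ∈ S | t < ‖G z‖} ≤ volume (ball x Λ) + volume E := by
    refine (measure_mono fun z hz => ?_).trans (measure_union_le _ _)
    by_cases h : z ∈ ball x Λ
    · exact Or.inl h
    · exact Or.inr ⟨hz, h⟩
  have h2 : volume (ball x Λ) ≤ ENNReal.ofReal Real.pi * ENNReal.ofReal (t ^ 4)⁻¹ := by
    refine (volume_ball_le x hΛ0.le).trans (le_of_eq ?_)
    congr 2
    rw [Real.rpow_two, hΛ]
    field_simp
  have h3 : ENNReal.ofReal (t ^ 5) * volume E ≤ ENNReal.ofReal (B ^ (5 : ℝ)) *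
      (C * ENNReal.ofReal (2 ^ ((2 : ℝ) - 5 / 10)) * J) * ENNReal.ofReal t := by
    calc ENNReal.ofReal (t ^ 5) * volume E = ∫⁻ z in E, ENNReal.ofReal (t ^ 5) := by
          rw [setLIntegral_const]
      _ ≤ ∫⁻ z in E, ‖G z‖ₑ ^ (5 : ℝ) := by
          refine setLIntegral_mono' hEm fun z hz => ?_
          have h4 : t < ‖G z‖ := hz.1.2
          rw [← ofReal_norm, ENNReal.ofReal_rpow_of_nonneg (norm_nonneg _) (by norm_num)]
          refine ENNReal.ofReal_le_ofReal ?_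
          have : ‖G z‖ ^ (5 : ℝ) = ‖G z‖ ^ 5 := by
            rw [← Real.rpow_natCast]; norm_num
          rw [this]
          gcongr
      _ ≤ ∫⁻ z in S ∩ (ball x R \ ball x Λ), ‖G z‖ₑ ^ (5 : ℝ) :=
          lintegral_mono_set fun z hz => ⟨hz.1.1, hS hz.1.1, hz.2⟩
      _ ≤ ENNReal.ofReal (B ^ (5 : ℝ)) * ∫⁻ z in ball x R ∩ (ball x R \ ball x Λ),
            edist z x ^ (-((5 : ℝ) * (2 / 5))) ∂(dmu S K (5 / 10)) :=
          lintegral_le_dmu hS hSm hB (by norm_num) hxS hG (by norm_num)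
            (measurableSet_ball.diff measurableSet_ball)
      _ ≤ ENNReal.ofReal (B ^ (5 : ℝ)) * (C * ENNReal.ofReal (Λ ^ ((2 - 5 / 10 : ℝ) - 2) *
            2 ^ (2 - 5 / 10 : ℝ)) * J) := by
          refine mul_le_mul_right ?_ _
          rw [inter_eq_self_of_subset_right sdiff_subset]
          have e : (5 : ℝ) * (2 / 5) = 2 := by norm_num
          rw [e]
          refine lintegral_edist_rpow_outer (m := 2 - 5 / 10) hR (by norm_num) (by norm_num)
            (fun r hr hrR => ?_) hΛ0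
          rw [dmu_ball]
          exact hint r hr hrR
      _ = _ := by
          have e1 : Λ ^ ((2 - 5 / 10 : ℝ) - 2) = t := by
            rw [hΛ, Real.inv_rpow (by positivity), ← Real.rpow_neg (by positivity),
              ← Real.rpow_natCast, ← Real.rpow_mul ht.le]
            norm_num
          rw [e1, mul_comm t, ENNReal.ofReal_mul (by positivity)]
          ring
  have h4 : volume E ≤ ENNReal.ofReal (B ^ (5 : ℝ)) *
      (C * ENNReal.ofReal (2 ^ ((2 : ℝ) - 5 / 10)) * J) * ENNReal.ofReal (t ^ 4)⁻¹ := by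
    have e1 : volume E = ENNReal.ofReal (t ^ 5)⁻¹ * (ENNReal.ofReal (t ^ 5) * volume E) := by
      rw [← mul_assoc, ← ENNReal.ofReal_mul (by positivity), inv_mul_cancel₀ (by positivity),
        ENNReal.ofReal_one, one_mul]
    have e2 : ENNReal.ofReal (t ^ 4)⁻¹ = ENNReal.ofReal (t ^ 5)⁻¹ * ENNReal.ofReal t := by
      rw [← ENNReal.ofReal_mul (by positivity)]
      congr 1
      field_simp
    rw [e1, e2]
    calc ENNReal.ofReal (t ^ 5)⁻¹ * (ENNReal.ofReal (t ^ 5) * volume E)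
        ≤ ENNReal.ofReal (t ^ 5)⁻¹ * (ENNReal.ofReal (B ^ (5 : ℝ)) *
          (C * ENNReal.ofReal (2 ^ ((2 : ℝ) - 5 / 10)) * J) * ENNReal.ofReal t) :=
          mul_le_mul_right h3 _
      _ = _ := by ring
  rw [add_mul]
  exact h1.trans (add_le_add h2 h4)

end Vale.Agent.P128.H261
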