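import Vale.Agent.P128.H261.Ode
import Vale.Agent.P128.H261.Weak

open MeasureTheory Set Metric Filter
open scoped ENNReal NNReal ContDiff Topology Real

namespace Vale.Agent.P128.H261

open Vale.Agent.P128

variable {Ω : Set ℂ} {g u : ℂ → ℝ} {G : ℂ → ℂ} {K : Set ℂ} {M : ℝ} {x : ℂ} {R₀ : ℝ}

theorem En_subset (h : Q1.MS Ω g u G K M x R₀) {y z : ℂ} {r t : ℝ} (hrt : ball z r ⊆ ball y t) :
    En G z r ≤ En G y t :=
  setIntegral_mono_set h.N.G_memLp.norm.integrable_sq.integrableOn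
    (Eventually.of_forall fun _ => by positivity) hrt.eventuallyLE

/-- Energy decay and lower density at the points of `K` near `x`. -/
theorem decay_away (h : Q1.MS Ω g u G K M x R₀) (hl : Q1.LineAway G K x) :
    ∃ R k A : ℝ, 0 < R ∧ R ≤ R₀ / 8 ∧ 0 < k ∧ k ≤ 1 / 4 ∧ 0 < A ∧ ∀ y ∈ K, y ≠ x →
      dist y x ≤ 2 * R → ∀ r, 0 < r → r ≤ k * dist y x →
        En G y r ≤ A * ((r / dist y x) ^ (9 / 5 : ℝ) * (En G x (2 * dist y x) + dist y x ^ 2)) ∧
          r ≤ Hn K y r := by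
  obtain ⟨r₁, hr₁, c, hc, h1⟩ := hl (1 / 1000) (by norm_num)
  obtain ⟨k, hk⟩ : ∃ k, k = min (c / 2) (1 / 2) := ⟨_, rfl⟩
  have hk0 : 0 < k := by rw [hk]; positivity
  have hkc : k ≤ c / 2 := by rw [hk]; exact min_le_left _ _
  have hk2 : k ≤ 1 / 2 := by rw [hk]; exact min_le_right _ _
  have hR0 := h.R0
  have hR1 := h.R1
  have hπ := Real.pi_pos
  have hπ4 : π < 3.15 := Real.pi_lt_d2
  refine ⟨min (r₁ / 4) (R₀ / 8), k / 16, 4 * (16 / k) ^ (9 / 5 : ℝ) * (1 + 4 * M ^ 2),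
    by positivity, min_le_right _ _, by positivity, by linarith, by positivity, ?_⟩
  intro y hy hyx hyR r hr hrk
  have hd : 0 < dist y x := dist_pos.2 hyx
  have hdr : dist y x ≤ r₁ / 2 := by
    have := min_le_left (r₁ / 4) (R₀ / 8)
    linarith
  have hdR : dist y x ≤ R₀ / 4 := by
    have := min_le_right (r₁ / 4) (R₀ / 8)
    linarith
  obtain ⟨ρ, hρ⟩ : ∃ ρ, ρ = k * dist y x := ⟨_, rfl⟩
  have hρ0 : 0 < ρ := by rw [hρ]; positivity
  have hkd : ρ ≤ 1 / 2 * dist y x := by rw [hρ]; exact mul_le_mul_of_nonneg_right hk2 hd.le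
  have hline : ∀ z ∈ K, dist z y ≤ ρ → ∀ r, 0 < r → r ≤ ρ → Q1.LineClose G K z r (1 / 1000) := by
    intro z hz hzy r hr hrk
    have hzx : dist y x / 2 ≤ dist z x := by
      have := dist_triangle y z x
      rw [dist_comm y z] at this
      linarith only [this, hzy, hkd]
    have hzx' : dist z x ≤ r₁ := by
      have := dist_triangle z y x
      linarith only [this, hrk, hr, hzy, hkd, hdr]
    refine h1 z ⟨hz, hzx'⟩ ?_ r hr ?_
    · exact dist_pos.1 (by linarith only [hzx, hrk, hr, hkd, hd])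
    · calc r ≤ k * dist y x := by rw [← hρ]; exact hrk
        _ ≤ c / 2 * dist y x := mul_le_mul_of_nonneg_right hkc hd.le
        _ = c * (dist y x / 2) := by ring
        _ ≤ c * dist z x := mul_le_mul_of_nonneg_left hzx hc.le
  have hsub : closedBall y (2 * ρ) ⊆ closedBall x (4 * R₀) :=
    closedBall_subset_closedBall' (by linarith)
  have hΩ : closedBall y (2 * ρ) ⊆ Ω := hsub.trans h.sub
  have Z : Q1.FlatZone K y ρ (1 / 1000) :=
    ⟨hρ0, h.N.min.1.isCompact_inter hΩ, fun z hz hzy r hr hrρ => (hline z hz hzy r hr hrρ).lineAt⟩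
  have hub : ∀ z ∈ ball y (2 * ρ), |u z| ≤ M := fun z hz => h.bd z (hsub (ball_subset_closedBall hz))
  have hH : ∀ z ∈ K, dist z y ≤ ρ → ∀ r, 0 < r → r ≤ ρ → Hn K z r ≤ (2 + 1 / 100) * r := by
    intro z hz hzy r hr hrρ
    have := (abs_le.1 (hline z hz hzy r hr hrρ).2.2).2
    linarith only [this, hr]
  have hrρ : r ≤ ρ / 16 := by
    rw [hρ]
    calc r ≤ k / 16 * dist y x := hrk
      _ = k * dist y x / 16 := by ring
  constructor
  · have h2 := zone_decay h.N Z le_rfl hΩ hub hH hy (by rw [dist_self]; positivity) hr hrρ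
    have h3 : En G y (ρ / 16) ≤ En G x (2 * dist y x) :=
      En_subset h (ball_subset_ball' (by linarith))
    have h4 : 200 * (6 * π * M ^ 2) * (ρ / 16) ^ 2 ≤ 4 * M ^ 2 * dist y x ^ 2 := by
      have e1 : (ρ / 16) ^ 2 ≤ (dist y x / 32) ^ 2 := by
        refine pow_le_pow_left₀ (by positivity) ?_ 2
        linarith
      calc 200 * (6 * π * M ^ 2) * (ρ / 16) ^ 2
          ≤ 200 * (6 * 3.15 * M ^ 2) * (dist y x / 32) ^ 2 := by gcongr
        _ = 3780 / 1024 * (M ^ 2 * dist y x ^ 2) := by ring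
        _ ≤ 4 * (M ^ 2 * dist y x ^ 2) := by
            have : 0 ≤ M ^ 2 * dist y x ^ 2 := by positivity
            linarith
        _ = _ := by ring
    have hE := En_nonneg G x (2 * dist y x)
    have h5 : En G y (ρ / 16) + 200 * (6 * π * M ^ 2) * (ρ / 16) ^ 2 ≤
        (1 + 4 * M ^ 2) * (En G x (2 * dist y x) + dist y x ^ 2) := by
      have e1 : 0 ≤ 4 * M ^ 2 * En G x (2 * dist y x) := by positivity
      have e2 : 0 ≤ dist y x ^ 2 := by positivity
      linarith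
    have e1 : r / (ρ / 16) = 16 / k * (r / dist y x) := by rw [hρ]; field_simp
    rw [e1, Real.mul_rpow (by positivity) (by positivity)] at h2
    calc En G y r ≤ _ := h2
      _ ≤ 4 * ((16 / k) ^ (9 / 5 : ℝ) * (r / dist y x) ^ (9 / 5 : ℝ)) *
          ((1 + 4 * M ^ 2) * (En G x (2 * dist y x) + dist y x ^ 2)) := by gcongr
      _ = _ := by ring
  · have h2 := (abs_le.1 (hline y hy (by rw [dist_self]; exact hρ0.le) r hr
      (by linarith)).2.2).1
    linarith only [h2, hr]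

/-- Pointwise bound of the gradient near a point `x` of `K`. -/
theorem grad_bound (h : Q1.MS Ω g u G K M x R₀) (hx : x ∈ K) (hl : Q1.LineAway G K x) :
    ∃ R c B : ℝ, 0 < R ∧ R ≤ R₀ / 8 ∧ 0 < c ∧ c ≤ 1 / 2 ∧ 0 < B ∧ ∀ z ∈ ball x R, z ∉ K →
      ‖G z‖ ≤ B * ((infDist z (K ∩ closedBall x R₀) / dist z x) ^ (-(1 / 10) : ℝ) *
        (√(En G x (4 * dist z x) + dist z x ^ 2) / dist z x)) ∧
      (c * dist z x ≤ infDist z (K ∩ closedBall x R₀) ∨
        ENNReal.ofReal (c * infDist z (K ∩ closedBall x R₀)) ≤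
          μH[1] (K ∩ closedBall x R₀ ∩ ball z (2 * infDist z (K ∩ closedBall x R₀)))) := by
  obtain ⟨R, k, A, hR, hRR, hk, hk4, hA, H⟩ := decay_away h hl
  obtain ⟨c₁, hc₁, hge⟩ := Q.exists_grad_est
  have hR0 := h.R0
  have hR1 := h.R1
  have hM1 := h.M1
  have hK₁ : IsCompact (K ∩ closedBall x R₀) := h.N.min.1.isCompact_inter
    ((closedBall_subset_closedBall (by linarith)).trans h.sub)
  have hx₁ : x ∈ K ∩ closedBall x R₀ := ⟨hx, mem_closedBall_self hR0.le⟩
  refine ⟨R, k / 4, c₁ * (16 * √A + 8 / k + M), hR, hRR, by positivity, by linarith,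
    by positivity, ?_⟩
  intro z hz hzK
  have hzK₁ : z ∉ K ∩ closedBall x R₀ := fun hh => hzK hh.1
  obtain ⟨d, hdd⟩ : ∃ d, d = infDist z (K ∩ closedBall x R₀) := ⟨_, rfl⟩
  obtain ⟨s, hss⟩ : ∃ s, s = dist z x := ⟨_, rfl⟩
  have hd : 0 < d := by
    rw [hdd]; exact (hK₁.isClosed.notMem_iff_infDist_pos ⟨x, hx₁⟩).1 hzK₁
  have hds : d ≤ s := by rw [hdd, hss]; exact infDist_le_dist_of_mem hx₁
  have hs : 0 < s := hd.trans_le hds
  have hsR : s < R := by rw [hss]; exact hz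
  have hs1 : s ≤ 1 := by linarith
  rw [← hdd, ← hss]
  have hzΩ : z ∈ Ω := h.sub (mem_closedBall.2 (by rw [← hss]; linarith))
  have hball : ball z d ⊆ ball x (2 * (2 * R₀)) \ K := by
    intro w hw
    rw [mem_ball] at hw
    have hwx : dist w x < 2 * s := by
      have := dist_triangle w z x
      rw [← hss] at this
      linarith
    refine ⟨mem_ball.2 (by linarith), fun hwK => ?_⟩
    have h1 : d ≤ dist z w := by
      rw [hdd]
      exact infDist_le_dist_of_mem ⟨hwK, mem_closedBall.2 (by linarith)⟩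
    rw [dist_comm] at h1
    linarith
  have hballΩ : ball z d ⊆ Ω := fun w hw =>
    h.sub (mem_closedBall.2 (by have := mem_ball.1 (hball hw).1; linarith))
  have hgr : ‖G z‖ ≤ c₁ * (√(En G z d) / (d / 2) + M * (d / 2)) := by
    rw [h.Gu z ⟨hzΩ, hzK⟩, h.En_dir hballΩ]
    have e : 2 * (d / 2) = d := by ring
    have h1 := (hge h.toQ z (d / 2) (half_pos hd) (by rw [e]; exact hball) z
      (mem_ball_self (half_pos hd)) z (mem_ball_self (half_pos hd))).1
    rwa [e] at h1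
  obtain ⟨F, hF⟩ : ∃ F, F = √(En G x (4 * s) + s ^ 2) := ⟨_, rfl⟩
  have hE4 := En_nonneg G x (4 * s)
  have hF0 : 0 ≤ F := by rw [hF]; exact Real.sqrt_nonneg _
  have hF2 : F ^ 2 = En G x (4 * s) + s ^ 2 := by rw [hF]; exact Real.sq_sqrt (by positivity)
  have hFs : s ≤ F := by
    rw [hF]
    exact Real.le_sqrt_of_sq_le (by linarith)
  rw [← hF]
  have hq1 : 1 ≤ (d / s) ^ (-(1 / 10) : ℝ) :=
    Real.one_le_rpow_of_pos_of_le_one_of_nonpos (by positivity) ((div_le_one hs).2 hds)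
      (by norm_num)
  have hFs1 : 1 ≤ F / s := (one_le_div hs).2 hFs
  have hP1 : 1 ≤ (d / s) ^ (-(1 / 10) : ℝ) * (F / s) := one_le_mul_of_one_le_of_one_le hq1 hFs1
  have hP0 : 0 ≤ (d / s) ^ (-(1 / 10) : ℝ) * (F / s) := by positivity
  have hMd : M * (d / 2) ≤ M * ((d / s) ^ (-(1 / 10) : ℝ) * (F / s)) := by
    have : d / 2 ≤ 1 := by linarith
    gcongr
    exact this.trans hP1
  rcases lt_or_ge d (k / 4 * s) with hcase | hcase
  · obtain ⟨y, hy, hyd⟩ := hK₁.exists_infDist_eq_dist ⟨x, hx₁⟩ z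
    rw [← hdd] at hyd
    have hk1 : k / 4 * s ≤ 1 / 16 * s := mul_le_mul_of_nonneg_right (by linarith) hs.le
    have hyx1 : s / 2 ≤ dist y x := by
      have := dist_triangle z y x
      rw [← hss, ← hyd] at this
      linarith
    have hyx2 : dist y x ≤ 2 * s := by
      have := dist_triangle_left y x z
      rw [← hss, ← hyd] at this
      linarith
    have hyx : y ≠ x := dist_pos.1 (by linarith)
    have h2d : 2 * d ≤ k * dist y x := by
      have : k / 2 * s ≤ k * dist y x := by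
        calc k / 2 * s = k * (s / 2) := by ring
          _ ≤ k * dist y x := by gcongr
      linarith
    have hk2 : k * dist y x ≤ dist y x := mul_le_of_le_one_left dist_nonneg (by linarith)
    constructor
    · obtain ⟨h1, -⟩ := H y hy.1 hyx (by linarith) (2 * d) (by positivity) h2d
      have h2 : En G z d ≤ En G y (2 * d) := En_subset h (ball_subset_ball' (by linarith))
      have hyp : 0 < dist y x := by linarith
      have h3 : En G x (2 * dist y x) + dist y x ^ 2 ≤ 4 * F ^ 2 := by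
        have e1 : En G x (2 * dist y x) ≤ En G x (4 * s) :=
          En_subset h (ball_subset_ball (by linarith))
        have e2 : dist y x ^ 2 ≤ (2 * s) ^ 2 := pow_le_pow_left₀ dist_nonneg hyx2 2
        rw [hF2]
        linarith [sq (2 * s)]
      have h4 : (2 * d / dist y x) ^ (9 / 5 : ℝ) ≤ 16 * (d / s) ^ (9 / 5 : ℝ) := by
        have e1 : 2 * d / dist y x ≤ 4 * (d / s) := by
          calc 2 * d / dist y x ≤ 2 * d / (s / 2) := by gcongr
            _ = 4 * (d / s) := by field_simp; ring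
        calc (2 * d / dist y x) ^ (9 / 5 : ℝ) ≤ (4 * (d / s)) ^ (9 / 5 : ℝ) := by gcongr
          _ = 4 ^ (9 / 5 : ℝ) * (d / s) ^ (9 / 5 : ℝ) :=
              Real.mul_rpow (by norm_num) (by positivity)
          _ ≤ 16 * (d / s) ^ (9 / 5 : ℝ) := by
              gcongr
              calc (4 : ℝ) ^ (9 / 5 : ℝ) ≤ (4 : ℝ) ^ (2 : ℝ) :=
                    Real.rpow_le_rpow_of_exponent_le (by norm_num) (by norm_num)
                _ = 16 := by norm_num
      have h5 : En G z d ≤ (8 * √A * ((d / s) ^ (9 / 10 : ℝ) * F)) ^ 2 := by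
        have e1 : (8 * √A * ((d / s) ^ (9 / 10 : ℝ) * F)) ^ 2 =
            A * ((16 * (d / s) ^ (9 / 5 : ℝ)) * (4 * F ^ 2)) := by
          rw [mul_pow, mul_pow, mul_pow, Real.sq_sqrt hA.le, ← Real.rpow_natCast ((d / s) ^ _),
            ← Real.rpow_mul (by positivity)]
          norm_num
          ring
        rw [e1]
        refine h2.trans (h1.trans ?_)
        have e2 : 0 ≤ En G x (2 * dist y x) + dist y x ^ 2 :=
          add_nonneg (En_nonneg G x _) (by positivity)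
        gcongr
      have h6 : √(En G z d) ≤ 8 * √A * ((d / s) ^ (9 / 10 : ℝ) * F) := by
        rw [Real.sqrt_le_left (by positivity)]
        exact h5
      have h7 : √(En G z d) / (d / 2) ≤ 16 * √A * ((d / s) ^ (-(1 / 10) : ℝ) * (F / s)) := by
        have e1 : (d / s) ^ (9 / 10 : ℝ) / (d / s) = (d / s) ^ (-(1 / 10) : ℝ) := by
          rw [← Real.rpow_sub_one (by positivity)]; norm_num
        calc √(En G z d) / (d / 2)
            ≤ 8 * √A * ((d / s) ^ (9 / 10 : ℝ) * F) / (d / 2) := by gcongr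
          _ = 16 * √A * (((d / s) ^ (9 / 10 : ℝ) / (d / s)) * (F / s)) := by field_simp; ring
          _ = _ := by rw [e1]
      calc ‖G z‖ ≤ c₁ * (√(En G z d) / (d / 2) + M * (d / 2)) := hgr
        _ ≤ c₁ * (16 * √A * ((d / s) ^ (-(1 / 10) : ℝ) * (F / s)) +
            M * ((d / s) ^ (-(1 / 10) : ℝ) * (F / s))) := by gcongr
        _ ≤ c₁ * ((16 * √A + 8 / k + M) * ((d / s) ^ (-(1 / 10) : ℝ) * (F / s))) := by
            gcongr
            have : 0 ≤ 8 / k * ((d / s) ^ (-(1 / 10) : ℝ) * (F / s)) := by positivity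
            linarith
        _ = _ := by ring
    · right
      obtain ⟨-, h1⟩ := H y hy.1 hyx (by linarith) (d / 2) (by positivity) (by linarith)
      have h2 : K ∩ closedBall y (d / 2) ⊆ K ∩ closedBall x R₀ ∩ ball z (2 * d) := by
        rintro w ⟨hwK, hw⟩
        rw [mem_closedBall] at hw
        refine ⟨⟨hwK, mem_closedBall.2 ?_⟩, mem_ball.2 ?_⟩
        · have := dist_triangle w y x
          linarith
        · have := dist_triangle_right w z y
          rw [← hyd] at this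
          linarith
      refine le_trans ?_ (measure_mono h2)
      have hfin : μH[1] (K ∩ closedBall y (d / 2)) ≠ ⊤ :=
        ((measure_mono inter_subset_left).trans_lt h.N.min.1.finite).ne
      rw [ENNReal.ofReal_le_iff_le_toReal hfin]
      calc k / 4 * d ≤ 1 / 2 * d := mul_le_mul_of_nonneg_right (by linarith) hd.le
        _ = d / 2 := by ring
        _ ≤ _ := h1
  · refine ⟨?_, Or.inl hcase⟩
    have h1 : En G z d ≤ F ^ 2 := by
      rw [hF2]
      have : En G z d ≤ En G x (4 * s) := En_subset h (ball_subset_ball' (by linarith))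
      have h2 : 0 ≤ s ^ 2 := by positivity
      linarith
    have h6 : √(En G z d) ≤ F := by
      rw [Real.sqrt_le_left hF0]
      exact h1
    have h7 : √(En G z d) / (d / 2) ≤ 8 / k * ((d / s) ^ (-(1 / 10) : ℝ) * (F / s)) := by
      calc √(En G z d) / (d / 2) ≤ F / (k / 4 * s / 2) := by gcongr
        _ = 8 / k * (1 * (F / s)) := by field_simp; ring
        _ ≤ _ := by gcongr
    calc ‖G z‖ ≤ c₁ * (√(En G z d) / (d / 2) + M * (d / 2)) := hgr
      _ ≤ c₁ * (8 / k * ((d / s) ^ (-(1 / 10) : ℝ) * (F / s)) +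
          M * ((d / s) ^ (-(1 / 10) : ℝ) * (F / s))) := by gcongr
      _ ≤ c₁ * ((16 * √A + 8 / k + M) * ((d / s) ^ (-(1 / 10) : ℝ) * (F / s))) := by
          gcongr
          have : 0 ≤ 16 * √A * ((d / s) ^ (-(1 / 10) : ℝ) * (F / s)) := by positivity
          linarith
      _ = _ := by ring

/-- The same if the energy around `x` is at most `C s ^ (1 + 2 τ)`. -/
theorem grad_bound' (h : Q1.MS Ω g u G K M x R₀) (hx : x ∈ K) (hl : Q1.LineAway G K x) {τ C s₁ : ℝ}
    (hτ1 : τ ≤ 1 / 2) (hC : 0 ≤ C) (hs₁ : 0 < s₁)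
    (hE : ∀ s, 0 < s → s ≤ s₁ → En G x s ≤ C * s ^ (1 + 2 * τ)) :
    ∃ R c B : ℝ, 0 < R ∧ R ≤ R₀ / 8 ∧ 0 < c ∧ 0 < B ∧ ∀ z ∈ ball x R, z ∉ K →
      ‖G z‖ ≤ B * (infDist z (K ∩ closedBall x R₀) ^ (-(1 / 10) : ℝ) *
        dist z x ^ (-(2 / 5 - τ))) ∧
      (c * dist z x ≤ infDist z (K ∩ closedBall x R₀) ∨
        ENNReal.ofReal (c * infDist z (K ∩ closedBall x R₀)) ≤
          μH[1] (K ∩ closedBall x R₀ ∩ ball z (2 * infDist z (K ∩ closedBall x R₀)))) := by
  obtain ⟨R, c, B, hR, hRR, hc, hc2, hB, H⟩ := grad_bound h hx hl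
  have hR1 := h.R1
  refine ⟨min R (s₁ / 4), c, B * √(C * 4 ^ (1 + 2 * τ) + 1), lt_min hR (by positivity),
    (min_le_left _ _).trans hRR, hc, by positivity, fun z hz hzK => ?_⟩
  have hzR : z ∈ ball x R := ball_subset_ball (min_le_left _ _) hz
  obtain ⟨h1, h2⟩ := H z hzR hzK
  refine ⟨h1.trans ?_, h2⟩
  obtain ⟨s, hss⟩ : ∃ s, s = dist z x := ⟨_, rfl⟩
  have hs : 0 < s := by rw [hss]; exact dist_pos.2 fun hh => hzK (hh ▸ hx)
  have hsR : s < min R (s₁ / 4) := by rw [hss]; exact hz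
  have hs1 : s ≤ 1 := by
    have := min_le_left R (s₁ / 4)
    linarith
  have hs4 : 4 * s ≤ s₁ := by
    have := min_le_right R (s₁ / 4)
    linarith
  obtain ⟨d, hdd⟩ : ∃ d, d = infDist z (K ∩ closedBall x R₀) := ⟨_, rfl⟩
  have hd : 0 ≤ d := by rw [hdd]; exact infDist_nonneg
  rw [← hss, ← hdd]
  have h3 : En G x (4 * s) + s ^ 2 ≤ (C * 4 ^ (1 + 2 * τ) + 1) * s ^ (1 + 2 * τ) := by
    have e1 := hE (4 * s) (by positivity) hs4
    rw [Real.mul_rpow (by norm_num) hs.le] at e1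
    have e2 : s ^ 2 ≤ s ^ (1 + 2 * τ) := by
      rw [← Real.rpow_two]
      exact Real.rpow_le_rpow_of_exponent_ge hs hs1 (by linarith)
    linarith
  have h4 : √(En G x (4 * s) + s ^ 2) ≤ √(C * 4 ^ (1 + 2 * τ) + 1) * s ^ (1 / 2 + τ) := by
    rw [Real.sqrt_le_left (by positivity), mul_pow, Real.sq_sqrt (by positivity),
      ← Real.rpow_natCast (s ^ _), ← Real.rpow_mul hs.le]
    have e : (1 / 2 + τ) * ((2 : ℕ) : ℝ) = 1 + 2 * τ := by push_cast; ring
    rw [e]
    exact h3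
  have h5 : (d / s) ^ (-(1 / 10) : ℝ) * (s ^ (1 / 2 + τ) / s) =
      d ^ (-(1 / 10) : ℝ) * s ^ (-(2 / 5 - τ)) := by
    rw [Real.div_rpow hd hs.le, ← Real.rpow_sub_one hs.ne', div_mul_eq_mul_div, mul_div_assoc,
      ← Real.rpow_sub hs]
    congr 2
    ring
  calc B * ((d / s) ^ (-(1 / 10) : ℝ) * (√(En G x (4 * s) + s ^ 2) / s))
      ≤ B * ((d / s) ^ (-(1 / 10) : ℝ) *
          (√(C * 4 ^ (1 + 2 * τ) + 1) * s ^ (1 / 2 + τ) / s)) := by gcongr
    _ = B * √(C * 4 ^ (1 + 2 * τ) + 1) * ((d / s) ^ (-(1 / 10) : ℝ) * (s ^ (1 / 2 + τ) / s)) := by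
        ring
    _ = _ := by rw [h5]

end Vale.Agent.P128.H261
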