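import Vale.Agent.P128.MathlibUsed

open MeasureTheory Set Metric Filter
open scoped ENNReal NNReal Topology

namespace Vale.Agent.P128.H261

/-- A power of the distance to a point is integrable against a measure of larger dimension. -/
theorem lintegral_edist_rpow_le {X : Type*} [MetricSpace X] [MeasurableSpace X] [BorelSpace X]
    {μ : Measure X} {x : X} {R a m : ℝ} {C : ℝ≥0∞} (hR : 0 < R) (ha : 0 ≤ a) (ham : a < m)
    (hC : C ≠ ⊤) (hμ : ∀ r, 0 < r → r ≤ R → μ (ball x r) ≤ C * ENNReal.ofReal (r ^ m)) :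
    ∫⁻ w in ball x R, edist w x ^ (-a) ∂μ ≤ C * ENNReal.ofReal (R ^ (m - a) * 2 ^ a) *
      (1 - ENNReal.ofReal ((1 / 2) ^ (m - a)))⁻¹ := by
  have hm : 0 < m := ha.trans_lt ham
  -- the centre has measure zero
  have hx : μ {x} = 0 := by
    have h1 : Tendsto (fun r : ℝ => C * ENNReal.ofReal (r ^ m)) (𝓝[>] 0) (𝓝 0) := by
      have h2 : Tendsto (fun r : ℝ => r ^ m) (𝓝[>] 0) (𝓝 0) := by
        have := (Real.continuousAt_rpow_const 0 m (Or.inr hm.le)).tendsto
        rw [Real.zero_rpow hm.ne'] at this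
        exact this.mono_left nhdsWithin_le_nhds
      have h3 := ENNReal.tendsto_ofReal h2
      rw [ENNReal.ofReal_zero] at h3
      have h4 := ENNReal.Tendsto.const_mul (a := C) h3 (Or.inr hC)
      rwa [mul_zero] at h4
    refine le_antisymm (ge_of_tendsto h1 ?_) bot_le
    filter_upwards [Ioo_mem_nhdsGT hR] with r hr
    exact (measure_mono (singleton_subset_iff.2 (mem_ball_self hr.1))).trans (hμ r hr.1 hr.2.le)
  set ρ : ℕ → ℝ := fun k => R * (1 / 2) ^ k with hρ
  have hρ0 : ∀ k, 0 < ρ k := fun k => by positivity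
  have hρR : ∀ k, ρ k ≤ R := fun k => by
    have : ((1 : ℝ) / 2) ^ k ≤ 1 := pow_le_one₀ (by norm_num) (by norm_num)
    calc R * (1 / 2) ^ k ≤ R * 1 := by gcongr
      _ = R := mul_one R
  have key : ∀ᵐ w ∂(μ.restrict (ball x R)), edist w x ^ (-a) ≤
      ∑' k, (ball x (ρ k)).indicator (fun _ => ENNReal.ofReal (ρ (k + 1)) ^ (-a)) w := by
    have hne : ∀ᵐ w ∂μ, w ≠ x := by
      rw [ae_iff]
      simpa using hx
    filter_upwards [ae_restrict_mem measurableSet_ball, ae_restrict_of_ae hne] with w hw hwx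
    have hd : 0 < dist w x := dist_pos.2 hwx
    obtain ⟨k, hk1, hk2⟩ : ∃ k : ℕ, dist w x < ρ k ∧ ρ (k + 1) ≤ dist w x := by
      have hex : ∃ k, ρ k ≤ dist w x := by
        have h1 : Tendsto ρ atTop (𝓝 0) := by
          have := (tendsto_pow_atTop_nhds_zero_of_lt_one (r := (1 : ℝ) / 2) (by norm_num)
            (by norm_num)).const_mul R
          rwa [mul_zero] at this
        exact ((h1.eventually (gt_mem_nhds hd)).exists).imp fun k hk => hk.le
      classical
      refine ⟨Nat.find hex - 1, ?_, ?_⟩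
      · by_contra hcon
        push Not at hcon
        have h0 : Nat.find hex ≠ 0 := by
          intro h0
          have := Nat.find_spec hex
          rw [h0] at this
          have h2 : ρ 0 = R := by simp [hρ]
          rw [h2] at this
          exact absurd hw (by rw [mem_ball, not_lt]; exact this)
        exact Nat.find_min hex (Nat.sub_lt (Nat.pos_of_ne_zero h0) one_pos) hcon
      · have h0 : Nat.find hex ≠ 0 := by
          intro h0
          have := Nat.find_spec hex
          rw [h0] at this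
          have h2 : ρ 0 = R := by simp [hρ]
          rw [h2] at this
          exact absurd hw (by rw [mem_ball, not_lt]; exact this)
        rw [Nat.sub_add_cancel (Nat.pos_of_ne_zero h0)]
        exact Nat.find_spec hex
    refine le_trans ?_ (ENNReal.le_tsum k)
    rw [indicator_of_mem (mem_ball.2 hk1)]
    rw [ENNReal.rpow_neg, ENNReal.rpow_neg, ENNReal.inv_le_inv, edist_dist]
    exact ENNReal.rpow_le_rpow (ENNReal.ofReal_le_ofReal hk2) ha
  refine (lintegral_mono_ae key).trans ?_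
  rw [lintegral_tsum fun k => (measurable_const.indicator measurableSet_ball).aemeasurable]
  have hterm : ∀ k, ∫⁻ w in ball x R, (ball x (ρ k)).indicator
      (fun _ => ENNReal.ofReal (ρ (k + 1)) ^ (-a)) w ∂μ ≤
      C * ENNReal.ofReal (R ^ (m - a) * 2 ^ a) * ENNReal.ofReal ((1 / 2) ^ (m - a)) ^ k := by
    intro k
    rw [lintegral_indicator_const measurableSet_ball]
    have h1 : μ.restrict (ball x R) (ball x (ρ k)) ≤ C * ENNReal.ofReal (ρ k ^ m) :=
      (Measure.restrict_apply_le _ _).trans (hμ _ (hρ0 k) (hρR k))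
    have h2 : ENNReal.ofReal (ρ (k + 1)) ^ (-a) = ENNReal.ofReal (ρ (k + 1) ^ (-a)) :=
      ENNReal.ofReal_rpow_of_pos (hρ0 _)
    rw [h2]
    refine (mul_le_mul_right h1 _).trans (le_of_eq ?_)
    rw [← ENNReal.ofReal_pow (by positivity), mul_left_comm, mul_assoc,
      ← ENNReal.ofReal_mul (by positivity), ← ENNReal.ofReal_mul (by positivity)]
    congr 2
    have e1 : ρ (k + 1) = ρ k / 2 := by simp only [hρ, pow_succ]; ring
    rw [e1, Real.div_rpow (hρ0 k).le (by norm_num), Real.rpow_neg (hρ0 k).le,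
      Real.rpow_neg (by norm_num : (0 : ℝ) ≤ 2)]
    have e2 : ρ k ^ m = ρ k ^ (m - a) * ρ k ^ a := by
      rw [← Real.rpow_add (hρ0 k)]; congr 1; ring
    have e3 : ρ k ^ (m - a) = R ^ (m - a) * ((1 / 2 : ℝ) ^ (m - a)) ^ k := by
      rw [hρ]
      simp only
      rw [Real.mul_rpow hR.le (by positivity), ← Real.rpow_natCast, ← Real.rpow_natCast,
        ← Real.rpow_mul (by norm_num), ← Real.rpow_mul (by norm_num), mul_comm (k : ℝ)]
    have h3 : ρ k ^ a ≠ 0 := (Real.rpow_pos_of_pos (hρ0 k) a).ne'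
    have h4 : (2 : ℝ) ^ a ≠ 0 := (Real.rpow_pos_of_pos (by norm_num) a).ne'
    rw [e2, e3]
    field_simp
  refine (ENNReal.tsum_le_tsum hterm).trans ?_
  rw [ENNReal.tsum_mul_left, ENNReal.tsum_geometric]

theorem const_lt_top {R a m : ℝ} {C : ℝ≥0∞} (ham : a < m) (hC : C ≠ ⊤) :
    C * ENNReal.ofReal (R ^ (m - a) * 2 ^ a) * (1 - ENNReal.ofReal ((1 / 2) ^ (m - a)))⁻¹ < ⊤ := by
  refine ENNReal.mul_lt_top (ENNReal.mul_lt_top hC.lt_top ENNReal.ofReal_lt_top) ?_
  rw [ENNReal.inv_lt_top, tsub_pos_iff_lt]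
  rw [ENNReal.ofReal_lt_one]
  exact Real.rpow_lt_one (by norm_num) (by norm_num) (by linarith)

theorem edist_rpow_neg_ge {X : Type*} [PseudoMetricSpace X] {z w : X} {t a : ℝ} (ht : 0 < t)
    (ha : 0 ≤ a) (h : dist z w ≤ t) : ENNReal.ofReal (t ^ (-a)) ≤ edist z w ^ (-a) := by
  rw [← ENNReal.ofReal_rpow_of_pos ht, ENNReal.rpow_neg, ENNReal.rpow_neg, ENNReal.inv_le_inv,
    edist_dist]
  exact ENNReal.rpow_le_rpow (ENNReal.ofReal_le_ofReal h) ha

/-- The same away from the point, for a power larger than the dimension. -/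
theorem lintegral_edist_rpow_outer {X : Type*} [MetricSpace X] [MeasurableSpace X] [BorelSpace X]
    {μ : Measure X} {x : X} {R a m : ℝ} {C : ℝ≥0∞} (hR : 0 < R) (hm : 0 ≤ m) (ham : m < a)
    (hμ : ∀ r, 0 < r → r ≤ R → μ (ball x r) ≤ C * ENNReal.ofReal (r ^ m)) {Λ : ℝ} (hΛ : 0 < Λ) :
    ∫⁻ w in ball x R \ ball x Λ, edist w x ^ (-a) ∂μ ≤ C * ENNReal.ofReal (Λ ^ (m - a) * 2 ^ m) *
      (1 - ENNReal.ofReal ((1 / 2) ^ (a - m)))⁻¹ := by
  have ha : 0 ≤ a := hm.trans ham.le
  set ρ : ℕ → ℝ := fun k => Λ * 2 ^ k with hρ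
  have hρ0 : ∀ k, 0 < ρ k := fun k => by positivity
  have hms : MeasurableSet (ball x R \ ball x Λ) := measurableSet_ball.diff measurableSet_ball
  have key : ∀ᵐ w ∂(μ.restrict (ball x R \ ball x Λ)), edist w x ^ (-a) ≤
      ∑' k, (ball x (min (ρ (k + 1)) R)).indicator (fun _ => ENNReal.ofReal (ρ k) ^ (-a)) w := by
    filter_upwards [ae_restrict_mem hms] with w hw
    have hwR : dist w x < R := hw.1
    have hwΛ : Λ ≤ dist w x := by
      have := hw.2
      rwa [mem_ball, not_lt] at this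
    obtain ⟨k, hk1, hk2⟩ : ∃ k : ℕ, ρ k ≤ dist w x ∧ dist w x < ρ (k + 1) := by
      obtain ⟨n, hn⟩ := exists_nat_pow_near (x := dist w x / Λ) (y := 2)
        ((one_le_div hΛ).2 hwΛ) (by norm_num)
      refine ⟨n, ?_, ?_⟩
      · have := (le_div_iff₀ hΛ).1 hn.1
        calc ρ n = 2 ^ n * Λ := by rw [hρ]; ring
          _ ≤ _ := this
      · have := (div_lt_iff₀ hΛ).1 hn.2
        calc dist w x < 2 ^ (n + 1) * Λ := this
          _ = ρ (n + 1) := by rw [hρ]; ring
    refine le_trans ?_ (ENNReal.le_tsum k)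
    rw [indicator_of_mem (mem_ball.2 (lt_min hk2 hwR))]
    rw [ENNReal.rpow_neg, ENNReal.rpow_neg, ENNReal.inv_le_inv, edist_dist]
    exact ENNReal.rpow_le_rpow (ENNReal.ofReal_le_ofReal hk1) ha
  refine (lintegral_mono_ae key).trans ?_
  rw [lintegral_tsum fun k => (measurable_const.indicator measurableSet_ball).aemeasurable]
  have hterm : ∀ k, ∫⁻ w in ball x R \ ball x Λ, (ball x (min (ρ (k + 1)) R)).indicator
      (fun _ => ENNReal.ofReal (ρ k) ^ (-a)) w ∂μ ≤
      C * ENNReal.ofReal (Λ ^ (m - a) * 2 ^ m) * ENNReal.ofReal ((1 / 2) ^ (a - m)) ^ k := by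
    intro k
    rw [lintegral_indicator_const measurableSet_ball]
    have h1 : μ.restrict (ball x R \ ball x Λ) (ball x (min (ρ (k + 1)) R)) ≤
        C * ENNReal.ofReal (ρ (k + 1) ^ m) := by
      refine (Measure.restrict_apply_le _ _).trans ((hμ _ (lt_min (hρ0 _) hR)
        (min_le_right _ _)).trans ?_)
      gcongr
      exact min_le_left _ _
    have h2 : ENNReal.ofReal (ρ k) ^ (-a) = ENNReal.ofReal (ρ k ^ (-a)) :=
      ENNReal.ofReal_rpow_of_pos (hρ0 _)
    rw [h2]
    refine (mul_le_mul_right h1 _).trans (le_of_eq ?_)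
    rw [← ENNReal.ofReal_pow (by positivity), mul_left_comm, mul_assoc,
      ← ENNReal.ofReal_mul (by positivity), ← ENNReal.ofReal_mul (by positivity)]
    congr 2
    have e1 : ρ (k + 1) = ρ k * 2 := by simp only [hρ, pow_succ]; ring
    rw [e1, Real.mul_rpow (hρ0 k).le (by norm_num)]
    have e2 : ρ k ^ (-a) * ρ k ^ m = ρ k ^ (m - a) := by
      rw [← Real.rpow_add (hρ0 k)]; congr 1; ring
    have e3 : ρ k ^ (m - a) = Λ ^ (m - a) * ((1 / 2 : ℝ) ^ (a - m)) ^ k := by
      rw [hρ]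
      simp only
      rw [Real.mul_rpow hΛ.le (by positivity), ← Real.rpow_natCast, ← Real.rpow_natCast,
        ← Real.rpow_mul (by norm_num), ← Real.rpow_mul (by norm_num), one_div,
        Real.inv_rpow (by norm_num), ← Real.rpow_neg (by norm_num)]
      congr 2
      ring
    calc ρ k ^ (-a) * (ρ k ^ m * 2 ^ m) = (ρ k ^ (-a) * ρ k ^ m) * 2 ^ m := by ring
      _ = _ := by rw [e2, e3]; ring
  refine (ENNReal.tsum_le_tsum hterm).trans ?_
  rw [ENNReal.tsum_mul_left, ENNReal.tsum_geometric]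

theorem const_outer_lt_top {a m : ℝ} (ham : m < a) :
    (1 - ENNReal.ofReal ((1 / 2) ^ (a - m)))⁻¹ < ⊤ := by
  rw [ENNReal.inv_lt_top, tsub_pos_iff_lt]
  rw [ENNReal.ofReal_lt_one]
  exact Real.rpow_lt_one (by norm_num) (by norm_num) (by linarith)

theorem volume_ball_le (w : ℂ) {r : ℝ} (hr : 0 ≤ r) :
    (volume : Measure ℂ) (ball w r) ≤ ENNReal.ofReal Real.pi * ENNReal.ofReal (r ^ (2 : ℝ)) := by
  rw [Complex.volume_ball, mul_comm, ← ENNReal.ofReal_pow hr, Real.rpow_two]
  gcongr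
  rw [← NNReal.coe_real_pi, ENNReal.ofReal_coe_nnreal]

/-- Integral over a disk of a power of the distance to a set `K` of finite length: scale invariant
bound near a point of `K`. -/
theorem exists_lintegral_dist_le {K : Set ℂ} (hK : IsClosed K) {x : ℂ} (hx : x ∈ K) {R c q : ℝ}
    {A : ℝ≥0∞} (hc : 0 < c) (hq0 : 0 < q) (hq1 : q < 1) (hA : A ≠ ⊤)
    (hfin : μH[1] K ≠ ⊤)
    (hup : ∀ r, 0 < r → r ≤ 3 * R → μH[1] (K ∩ ball x r) ≤ A * ENNReal.ofReal r)
    {S : Set ℂ} (hSm : MeasurableSet S) (hSK : ∀ z ∈ S, z ∉ K)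
    (hlow : ∀ z ∈ S, c * dist z x ≤ infDist z K ∨
      ENNReal.ofReal (c * infDist z K) ≤ μH[1] (K ∩ ball z (2 * infDist z K))) :
    ∃ C : ℝ≥0∞, C < ⊤ ∧ ∀ r, 0 < r → r ≤ R →
      ∫⁻ z in S ∩ ball x r, ENNReal.ofReal (infDist z K ^ (-q)) ≤
        C * ENNReal.ofReal (r ^ (2 - q)) := by
  have hKm : MeasurableSet K := hK.measurableSet
  set ν : Measure ℂ := (μH[1] : Measure ℂ).restrict K with hν
  have hνf : IsFiniteMeasure ν := ⟨by
    rw [hν, Measure.restrict_apply_univ]; exact hfin.lt_top⟩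
  set k : ℝ := c * (2 : ℝ) ^ (-(q + 1)) with hk
  have hk0 : 0 < k := by positivity
  -- constants
  set J : ℝ≥0∞ := (1 - ENNReal.ofReal ((1 / 2) ^ ((2 : ℝ) - (q + 1))))⁻¹ with hJ
  set J' : ℝ≥0∞ := (1 - ENNReal.ofReal ((1 / 2) ^ ((2 : ℝ) - q)))⁻¹ with hJ'
  have hJt : J < ⊤ := by
    have := const_lt_top (R := 1) (C := 1) (a := q + 1) (m := 2) (by linarith) (by simp)
    by_contra hcon
    rw [not_lt, top_le_iff] at hcon
    rw [← hJ, hcon, one_mul, ENNReal.mul_top (by simp; positivity)] at this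
    exact absurd this (lt_irrefl _)
  have hJt' : J' < ⊤ := by
    have := const_lt_top (R := 1) (C := 1) (a := q) (m := 2) (by linarith) (by simp)
    by_contra hcon
    rw [not_lt, top_le_iff] at hcon
    rw [← hJ', hcon, one_mul, ENNReal.mul_top (by simp; positivity)] at this
    exact absurd this (lt_irrefl _)
  refine ⟨ENNReal.ofReal k⁻¹ * (ENNReal.ofReal Real.pi * ENNReal.ofReal (4 ^ (1 - q) * 2 ^ (q + 1)) *
    J * (A * ENNReal.ofReal 3)) + ENNReal.ofReal (c ^ (-q)) * (ENNReal.ofReal Real.pi *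
      ENNReal.ofReal (2 ^ q) * J'), ?_, ?_⟩
  · have hA' := hA.lt_top
    refine ENNReal.add_lt_top.2 ⟨ENNReal.mul_lt_top ENNReal.ofReal_lt_top (ENNReal.mul_lt_top
      (ENNReal.mul_lt_top (ENNReal.mul_lt_top ENNReal.ofReal_lt_top ENNReal.ofReal_lt_top) hJt)
      (ENNReal.mul_lt_top hA' ENNReal.ofReal_lt_top)), ENNReal.mul_lt_top ENNReal.ofReal_lt_top
      (ENNReal.mul_lt_top (ENNReal.mul_lt_top ENNReal.ofReal_lt_top ENNReal.ofReal_lt_top) hJt')⟩
  intro r hr hrR
  -- pointwise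
  have h1 : ∀ z ∈ S ∩ ball x r, ENNReal.ofReal (infDist z K ^ (-q)) ≤
      ENNReal.ofReal k⁻¹ * (∫⁻ w in ball x (3 * r), edist z w ^ (-(q + 1)) ∂ν) +
        ENNReal.ofReal (c ^ (-q)) * edist z x ^ (-q) := by
    rintro z ⟨hz, hzr⟩
    have hd : 0 < infDist z K := (hK.notMem_iff_infDist_pos ⟨x, hx⟩).1 (hSK z hz)
    have hds : infDist z K ≤ dist z x := infDist_le_dist_of_mem hx
    have hs : 0 < dist z x := hd.trans_le hds
    have hsR : dist z x < r := hzr
    obtain ⟨d, hdd⟩ : ∃ d, d = infDist z K := ⟨_, rfl⟩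
    rw [← hdd] at hd hds ⊢
    rcases hlow z hz with hl | hl
    · rw [← hdd] at hl
      refine le_trans ?_ le_add_self
      calc ENNReal.ofReal (d ^ (-q)) ≤ ENNReal.ofReal ((c * dist z x) ^ (-q)) :=
            ENNReal.ofReal_le_ofReal (Real.rpow_le_rpow_of_nonpos (by positivity) hl (by linarith))
        _ = ENNReal.ofReal (c ^ (-q)) * ENNReal.ofReal (dist z x ^ (-q)) := by
            rw [Real.mul_rpow hc.le hs.le, ENNReal.ofReal_mul (by positivity)]
        _ ≤ _ := by
            gcongr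
            exact edist_rpow_neg_ge hs hq0.le le_rfl
    · rw [← hdd] at hl
      refine le_trans ?_ le_self_add
      have h2 : ENNReal.ofReal ((2 * d) ^ (-(q + 1))) * ENNReal.ofReal (c * d) ≤
          ∫⁻ w in ball x (3 * r), edist z w ^ (-(q + 1)) ∂ν := by
        calc ENNReal.ofReal ((2 * d) ^ (-(q + 1))) * ENNReal.ofReal (c * d)
            ≤ ENNReal.ofReal ((2 * d) ^ (-(q + 1))) * ν (ball z (2 * d)) := by
              gcongr
              rw [hν, Measure.restrict_apply measurableSet_ball, inter_comm]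
              exact hl
          _ = ∫⁻ w in ball z (2 * d), ENNReal.ofReal ((2 * d) ^ (-(q + 1))) ∂ν := by
              rw [setLIntegral_const]
          _ ≤ ∫⁻ w in ball z (2 * d), edist z w ^ (-(q + 1)) ∂ν := by
              refine setLIntegral_mono' measurableSet_ball fun w hw => ?_
              rw [mem_ball] at hw
              exact edist_rpow_neg_ge (by positivity) (by positivity)
                (by rw [dist_comm]; exact hw.le)
          _ ≤ _ := by
              refine lintegral_mono_set fun w hw => ?_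
              rw [mem_ball] at hw ⊢
              have := dist_triangle w z x
              linarith
      have h3 : ENNReal.ofReal (d ^ (-q)) = ENNReal.ofReal k⁻¹ *
          (ENNReal.ofReal ((2 * d) ^ (-(q + 1))) * ENNReal.ofReal (c * d)) := by
        rw [← ENNReal.ofReal_mul (by positivity), ← ENNReal.ofReal_mul (by positivity)]
        congr 1
        rw [Real.mul_rpow (by norm_num) hd.le, hk]
        have e1 : d ^ (-(q + 1)) * d = d ^ (-q) := by
          rw [← Real.rpow_add_one hd.ne']; congr 1; ring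
        have e2 : (2 : ℝ) ^ (-(q + 1)) ≠ 0 := (Real.rpow_pos_of_pos (by norm_num) _).ne'
        rw [← e1]
        field_simp
      rw [h3]
      gcongr
  -- the inner integral
  have h2 : ∀ w ∈ ball x (3 * r), ∫⁻ z in ball x r, edist z w ^ (-(q + 1)) ≤
      ENNReal.ofReal Real.pi * ENNReal.ofReal ((4 * r) ^ ((2 : ℝ) - (q + 1)) * 2 ^ (q + 1)) *
        J := by
    intro w hw
    refine (lintegral_mono_set (t := ball w (4 * r)) fun z hz => ?_).trans
      (lintegral_edist_rpow_le (μ := (volume : Measure ℂ)) (by positivity) (by positivity)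
        (by linarith) ENNReal.ofReal_ne_top fun r hr _ => volume_ball_le w hr.le)
    rw [mem_ball] at *
    have := dist_triangle_right z w x
    linarith
  have h3 : ∫⁻ z in ball x r, edist z x ^ (-q) ≤
      ENNReal.ofReal Real.pi * ENNReal.ofReal (r ^ ((2 : ℝ) - q) * 2 ^ q) * J' :=
    lintegral_edist_rpow_le (μ := (volume : Measure ℂ)) hr hq0.le (by linarith)
      ENNReal.ofReal_ne_top fun r hr _ => volume_ball_le x hr.le
  have h4 : ∫⁻ w in ball x (3 * r), ENNReal.ofReal Real.pi *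
      ENNReal.ofReal ((4 * r) ^ ((2 : ℝ) - (q + 1)) * 2 ^ (q + 1)) * J ∂ν ≤
      ENNReal.ofReal Real.pi * ENNReal.ofReal ((4 * r) ^ ((2 : ℝ) - (q + 1)) * 2 ^ (q + 1)) * J *
        (A * ENNReal.ofReal (3 * r)) := by
    rw [setLIntegral_const]
    gcongr
    rw [hν, Measure.restrict_apply measurableSet_ball, inter_comm]
    exact hup _ (by positivity) (by linarith)
  calc ∫⁻ z in S ∩ ball x r, ENNReal.ofReal (infDist z K ^ (-q))
      ≤ ∫⁻ z in S ∩ ball x r, (ENNReal.ofReal k⁻¹ *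
          (∫⁻ w in ball x (3 * r), edist z w ^ (-(q + 1)) ∂ν) +
          ENNReal.ofReal (c ^ (-q)) * edist z x ^ (-q)) :=
        setLIntegral_mono' (hSm.inter measurableSet_ball) h1
    _ ≤ ∫⁻ z in ball x r, (ENNReal.ofReal k⁻¹ *
          (∫⁻ w in ball x (3 * r), edist z w ^ (-(q + 1)) ∂ν) +
          ENNReal.ofReal (c ^ (-q)) * edist z x ^ (-q)) :=
        lintegral_mono_set inter_subset_right
    _ = (∫⁻ z in ball x r, ENNReal.ofReal k⁻¹ *
          ∫⁻ w in ball x (3 * r), edist z w ^ (-(q + 1)) ∂ν) +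
          ∫⁻ z in ball x r, ENNReal.ofReal (c ^ (-q)) * edist z x ^ (-q) := by
        have m2 : Measurable fun z : ℂ => ENNReal.ofReal (c ^ (-q)) * edist z x ^ (-q) :=
          measurable_const.mul ((measurable_id.edist measurable_const).pow_const _)
        rw [lintegral_add_right _ m2]
    _ = ENNReal.ofReal k⁻¹ * (∫⁻ w in ball x (3 * r), (∫⁻ z in ball x r,
          edist z w ^ (-(q + 1))) ∂ν) +
          ENNReal.ofReal (c ^ (-q)) * ∫⁻ z in ball x r, edist z x ^ (-q) := by
        have m1 : Measurable fun p : ℂ × ℂ => edist p.1 p.2 ^ (-(q + 1)) :=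
          measurable_edist.pow_const _
        rw [lintegral_const_mul' _ _ ENNReal.ofReal_ne_top,
          lintegral_const_mul' _ _ ENNReal.ofReal_ne_top,
          lintegral_lintegral_swap m1.aemeasurable]
    _ ≤ ENNReal.ofReal k⁻¹ * (ENNReal.ofReal Real.pi *
          ENNReal.ofReal ((4 * r) ^ ((2 : ℝ) - (q + 1)) * 2 ^ (q + 1)) * J *
          (A * ENNReal.ofReal (3 * r))) + ENNReal.ofReal (c ^ (-q)) *
          (ENNReal.ofReal Real.pi * ENNReal.ofReal (r ^ ((2 : ℝ) - q) * 2 ^ q) * J') := by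
        refine add_le_add (mul_le_mul_right ((setLIntegral_mono' measurableSet_ball h2).trans h4) _)
          (mul_le_mul_right h3 _)
    _ = _ := by
        have e1 : (4 * r) ^ ((2 : ℝ) - (q + 1)) * 2 ^ (q + 1) =
            (4 ^ (1 - q) * 2 ^ (q + 1)) * r ^ (1 - q) := by
          rw [Real.mul_rpow (by norm_num) hr.le]
          have : (2 : ℝ) - (q + 1) = 1 - q := by ring
          rw [this]
          ring
        have e2 : r ^ (2 - q) = r ^ (1 - q) * r := by
          rw [← Real.rpow_add_one hr.ne']; congr 1; ring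
        rw [e1, e2, mul_comm (r ^ (1 - q) * r) (2 ^ q), ENNReal.ofReal_mul (by positivity),
          ENNReal.ofReal_mul (by positivity : (0 : ℝ) ≤ 3), ENNReal.ofReal_mul (by positivity :
          (0 : ℝ) ≤ (2 : ℝ) ^ q), ENNReal.ofReal_mul (by positivity : (0 : ℝ) ≤ r ^ (1 - q))]
        ring

end Vale.Agent.P128.H261
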