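import Vale.Agent.P128.H261.Grad

open MeasureTheory Set Metric Filter
open scoped ENNReal NNReal ContDiff Topology Real

namespace Vale.Agent.P128.H261

open Vale.Agent.P128

variable {Ω : Set ℂ} {g u : ℂ → ℝ} {G : ℂ → ℂ} {K : Set ℂ} {M : ℝ} {x : ℂ} {R₀ : ℝ}

theorem measurableSet_near (h : Q1.MS Ω g u G K M x R₀) {R : ℝ} (hR : R ≤ R₀) :
    MeasurableSet (ball x R \ K) := by
  have hR0 := h.R0
  have hballΩ : ball x R ⊆ Ω := fun w hw =>
    h.sub (mem_closedBall.2 (by have := mem_ball.1 hw; linarith))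
  have e : ball x R \ K = ball x R ∩ (Ω \ K) := by
    ext z
    exact ⟨fun hz => ⟨hz.1, hballΩ hz.1, hz.2⟩, fun hz => ⟨hz.1, hz.2.2⟩⟩
  rw [e]
  exact (isOpen_ball.inter (h.N.min.1.isOpen_diff h.N.isOpen)).measurableSet

/-- The integral of the negative powers of the distance to `K`. -/
theorem hint_near (h : Q1.MS Ω g u G K M x R₀) (hx : x ∈ K) {R c q : ℝ} (hR : 0 < R)
    (hRR : R ≤ R₀ / 8) (hc : 0 < c) (hq0 : 0 < q) (hq1 : q < 1)
    (hlow : ∀ z ∈ ball x R \ K, c * dist z x ≤ infDist z (K ∩ closedBall x R₀) ∨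
        ENNReal.ofReal (c * infDist z (K ∩ closedBall x R₀)) ≤
          μH[1] (K ∩ closedBall x R₀ ∩ ball z (2 * infDist z (K ∩ closedBall x R₀)))) :
    ∃ C : ℝ≥0∞, C < ⊤ ∧ ∀ r, 0 < r → r ≤ R →
      ∫⁻ z in (ball x R \ K) ∩ ball x r,
          ENNReal.ofReal (infDist z (K ∩ closedBall x R₀) ^ (-q)) ≤
        C * ENNReal.ofReal (r ^ (2 - q)) := by
  have hR0 := h.R0
  have hR1 := h.R1
  have hπ := Real.pi_pos
  have hK₁ : IsCompact (K ∩ closedBall x R₀) := h.N.min.1.isCompact_inter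
    ((closedBall_subset_closedBall (by linarith)).trans h.sub)
  refine exists_lintegral_dist_le (A := ENNReal.ofReal (2 * π + π * M ^ 2)) (c := c)
    hK₁.isClosed ⟨hx, mem_closedBall_self hR0.le⟩ hc hq0 hq1 ENNReal.ofReal_ne_top
    ((measure_mono inter_subset_left).trans_lt h.N.min.1.finite).ne ?_
    (measurableSet_near h (by linarith)) (fun z hz hh => hz.2 hh.1) hlow
  intro r hr hr3
  have h3 := h.N.circle_bound (x := x) (s := r) (R := R₀) hr (by linarith)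
    ((closedBall_subset_closedBall (by linarith)).trans h.sub)
  have h4 := En_nonneg G x r
  have h5 := Un_nonneg g u x r
  have h6 : π * M ^ 2 * r ^ 2 ≤ π * M ^ 2 * r := by
    have : r ^ 2 ≤ r := by
      have : r * r ≤ r * 1 := by gcongr; linarith
      linarith [sq r]
    gcongr
  have h7 : Hn K x r ≤ (2 * π + π * M ^ 2) * r := by linarith
  rw [← ENNReal.ofReal_mul (by positivity)]
  refine le_trans (measure_mono (t := K ∩ closedBall x r) fun w hw =>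
    ⟨hw.1.1, ball_subset_closedBall hw.2⟩) ?_
  have hfin : μH[1] (K ∩ closedBall x r) ≠ ⊤ :=
    ((measure_mono inter_subset_left).trans_lt h.N.min.1.finite).ne
  rw [← ENNReal.ofReal_toReal hfin]
  exact ENNReal.ofReal_le_ofReal h7

/-- Weak type estimate near a point of `K`, for the normalised minimizer. -/
theorem weak_near (h : Q1.MS Ω g u G K M x R₀) (hx : x ∈ K) (hl : Q1.LineAway G K x) :
    ∃ R : ℝ, 0 < R ∧ R ≤ R₀ ∧ (∃ A : ℝ≥0∞, A < ⊤ ∧ ∀ t : ℝ, 0 < t →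
      volume {z ∈ ball x R \ K | t < ‖G z‖} ≤ A * ENNReal.ofReal (t ^ 4)⁻¹) ∧
      ∀ p : ℝ, 0 < p → p < 4 → MemLp G (ENNReal.ofReal p) (volume.restrict (ball x R \ K)) := by
  have hR0 := h.R0
  have hR1 := h.R1
  have hπ := Real.pi_pos
  obtain ⟨R, c, B, hR, hRR, hc, hB, H⟩ := grad_bound' h hx hl (τ := 0)
    (C := 2 * π + π * M ^ 2) (s₁ := R₀ / 2) (by norm_num) (by positivity) (by positivity) (by
      intro s hs hs1
      have h3 := h.N.circle_bound (x := x) (s := s) (R := R₀) hs (by linarith)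
        ((closedBall_subset_closedBall (by linarith)).trans h.sub)
      have h4 := Hn_nonneg K x s
      have h5 := Un_nonneg g u x s
      have h6 : π * M ^ 2 * s ^ 2 ≤ π * M ^ 2 * s := by
        have : s ^ 2 ≤ s := by
          have : s * s ≤ s * 1 := by gcongr; linarith
          linarith [sq s]
        gcongr
      rw [mul_zero, add_zero, Real.rpow_one]
      linarith)
  have hm := measurableSet_near h (R := R) (by linarith)
  have hx' : x ∉ ball x R \ K := fun hh => hh.2 hx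
  refine ⟨R, hR, by linarith, ?_, fun p hp hp4 => ?_⟩
  · refine weak_of_bound (K := K ∩ closedBall x R₀) (R := R) sdiff_subset hm hR hB hx' h.N.Gm
      (fun z hz => ?_) (hint_near h hx hR hRR hc (by norm_num) (by norm_num)
        fun z hz => (H z hz.1 hz.2).2)
    have := (H z hz.1 hz.2).1
    rwa [sub_zero] at this
  · refine memLp_of_bound (K := K ∩ closedBall x R₀) (R := R) (b := 2 / 5) sdiff_subset hm hR hB hp
      hx' h.N.Gm (fun z hz => ?_) (by norm_num) (by linarith) (hint_near h hx hR hRR hc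
        (by positivity) (by linarith) fun z hz => (H z hz.1 hz.2).2)
    have := (H z hz.1 hz.2).1
    rwa [sub_zero] at this

/-- Near a point at which the energy decays faster the gradient is better than `L^4`. -/
theorem strong_near (h : Q1.MS Ω g u G K M x R₀) (hx : x ∈ K) (hl : Q1.LineAway G K x) {C s₁ : ℝ}
    (hC : 0 ≤ C) (hs₁ : 0 < s₁) (hE : ∀ s, 0 < s → s ≤ s₁ → En G x s ≤ C * s ^ (3 / 2 : ℝ)) :
    ∃ R : ℝ, 0 < R ∧ R ≤ R₀ ∧ ∀ p : ℝ, 0 < p → p < 8 →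
      MemLp G (ENNReal.ofReal p) (volume.restrict (ball x R \ K)) := by
  have hR0 := h.R0
  obtain ⟨R, c, B, hR, hRR, hc, hB, H⟩ := grad_bound' h hx hl (τ := 1 / 4)
    (C := C) (s₁ := s₁) (by norm_num) hC hs₁ (by
      intro s hs hs1
      have e : (1 + 2 * (1 / 4) : ℝ) = 3 / 2 := by norm_num
      rw [e]
      exact hE s hs hs1)
  have hm := measurableSet_near h (R := R) (by linarith)
  have hx' : x ∉ ball x R \ K := fun hh => hh.2 hx
  refine ⟨R, hR, by linarith, fun p hp hp8 => ?_⟩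
  refine memLp_of_bound (K := K ∩ closedBall x R₀) (R := R) (b := 2 / 5 - 1 / 4) sdiff_subset hm hR
    hB hp hx' h.N.Gm (fun z hz => (H z hz.1 hz.2).1) (by norm_num) (by linarith)
    (hint_near h hx hR hRR hc (by positivity) (by linarith) fun z hz => (H z hz.1 hz.2).2)

/-- Energy decay at a point of line type. -/
theorem line_energy (h : Q1.MS Ω g u G K M x R₀) (hx : x ∈ K) (hl : Q1.LineType G K x) :
    ∃ C s₁ : ℝ, 0 ≤ C ∧ 0 < s₁ ∧ ∀ s, 0 < s → s ≤ s₁ → En G x s ≤ C * s ^ (3 / 2 : ℝ) := by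
  obtain ⟨r₁, hr₁, h1⟩ := hl (1 / 1000) (by norm_num)
  have hR0 := h.R0
  obtain ⟨ρ, hρ⟩ : ∃ ρ, ρ = min r₁ R₀ := ⟨_, rfl⟩
  have hρ0 : 0 < ρ := by rw [hρ]; exact lt_min hr₁ hR0
  have hρr : ρ ≤ r₁ := by rw [hρ]; exact min_le_left _ _
  have hρR : ρ ≤ R₀ := by rw [hρ]; exact min_le_right _ _
  have hsub : closedBall x (2 * ρ) ⊆ closedBall x (4 * R₀) :=
    closedBall_subset_closedBall (by linarith)
  have hline : ∀ z ∈ K, dist z x ≤ ρ → ∀ r, 0 < r → r ≤ ρ → Q1.LineClose G K z r (1 / 1000) :=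
    fun z hz hzx r hr hrρ => h1 z ⟨hz, mem_closedBall.2 (hzx.trans hρr)⟩ r hr (hrρ.trans hρr)
  have hΩ : closedBall x (2 * ρ) ⊆ Ω := hsub.trans h.sub
  have Z : Q1.FlatZone K x ρ (1 / 1000) :=
    ⟨hρ0, h.N.min.1.isCompact_inter hΩ, fun z hz hzy r hr hrρ => (hline z hz hzy r hr hrρ).lineAt⟩
  have hub : ∀ z ∈ ball x (2 * ρ), |u z| ≤ M := fun z hz => h.bd z (hsub (ball_subset_closedBall hz))
  have hH : ∀ z ∈ K, dist z x ≤ ρ → ∀ r, 0 < r → r ≤ ρ → Hn K z r ≤ (2 + 1 / 100) * r := by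
    intro z hz hzy r hr hrρ
    have := (abs_le.1 (hline z hz hzy r hr hrρ).2.2).2
    linarith only [this, hr]
  have hE := En_nonneg G x (ρ / 16)
  refine ⟨3 / (ρ / 16) ^ (3 / 2 : ℝ) * (En G x (ρ / 16) + 150 * (6 * π * M ^ 2) * (ρ / 16) ^ 2),
    ρ / 16, by positivity, by positivity, fun s hs hsρ => ?_⟩
  have h2 := Q1.mn_decay h.N Z le_rfl hΩ hub hH hx (by rw [dist_self]; positivity) hs hsρ
  rw [Real.div_rpow hs.le (by positivity)] at h2
  calc En G x s ≤ _ := h2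
    _ = _ := by ring

/-- The types, with the definitions of the statement. -/
theorem exists_type (hΩ : IsOpen Ω) (hg : MemLp g ⊤ (volume.restrict Ω))
    (hmin : IsMinimizer Ω g u G K) (hred : IsReduced Ω K) (hx : x ∈ K) :
    ∃ (g' u' : ℂ → ℝ) (G' : ℂ → ℂ) (M R₀ : ℝ), Q1.MS Ω g' u' G' K M x R₀ ∧
      G =ᵐ[volume.restrict (Ω \ K)] G' ∧ Q1.LineAway G' K x ∧
      ((∃ C s₁ : ℝ, 0 ≤ C ∧ 0 < s₁ ∧ ∀ s, 0 < s → s ≤ s₁ → En G' x s ≤ C * s ^ (3 / 2 : ℝ)) ∨
        H861.IsTip Ω K x) := by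
  obtain ⟨g', u', G', M, R₀, h, hG⟩ := H861.exists_MS' hΩ hg hmin hred hx
  have hxx : x ∈ K ∩ ball x R₀ := ⟨hx, mem_ball_self h.R0⟩
  refine ⟨g', u', G', M, R₀, h, hG, ?_⟩
  rcases Q1.types h (fun R ε hR hε => h.close Q1.classified hR hε) hxx with hl | hl | hl
  · exact ⟨hl.away, Or.inl (line_energy h hx hl)⟩
  · refine ⟨hl.2, Or.inl ?_⟩
    obtain ⟨s₀, φ, hφ⟩ := Q1.tripod_branches h hxx hl
    obtain ⟨s₁, hs₁, C, hC, H⟩ := hφ.tri_decay h hxx hl
    exact ⟨C, s₁, hC, hs₁, H⟩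
  · refine ⟨hl.2, Or.inr ?_⟩
    obtain ⟨s₀, φ, hφ⟩ := Q1.tip_branches h hxx hl
    obtain ⟨s₁, a, hs₁, h10, hr⟩ := Q1.tip_rates h hxx hl hφ
    obtain ⟨α, hα, H⟩ := Q1.arcEnding hφ hs₁ h10 hr
    have h0 : 0 < min s₁ R₀ := lt_min hs₁ h.R0
    obtain ⟨γ, γ', h4, h5⟩ := H (min s₁ R₀ / 2) (by positivity) (by
      have := min_le_left s₁ R₀
      linarith)
    refine ⟨min s₁ R₀ / 2, by positivity, ?_, α, hα, γ, γ', H861.IsArc.of_q1 h4, h5⟩
    have := min_le_right s₁ R₀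
    exact (closedBall_subset_closedBall (by linarith [h.R0])).trans h.sub

theorem ae_near {G' : ℂ → ℂ} (hG : G =ᵐ[volume.restrict (Ω \ K)] G') {R : ℝ} (hR : ball x R ⊆ Ω) :
    G =ᵐ[volume.restrict (ball x R \ K)] G' :=
  ae_mono (Measure.restrict_mono (sdiff_subset_sdiff_left hR) le_rfl) hG

end Vale.Agent.P128.H261
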