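import Vale.Agent.P128.H261.Lp

open MeasureTheory Set Metric Filter
open scoped ENNReal NNReal ContDiff Topology Real

namespace Vale.Agent.P128.H261

open Vale.Agent.P128

variable {Ω : Set ℂ} {g u : ℂ → ℝ} {G : ℂ → ℂ} {K : Set ℂ} {x : ℂ}

theorem ball_sub {g' u' : ℂ → ℝ} {G' : ℂ → ℂ} {M R₀ R : ℝ} (h : Q1.MS Ω g' u' G' K M x R₀)
    (hR : R ≤ R₀) : ball x R ⊆ Ω := fun w hw =>
  h.sub (mem_closedBall.2 (by have := mem_ball.1 hw; linarith [h.R0]))

theorem volume_set_congr {G' : ℂ → ℂ} {S : Set ℂ} (hS : MeasurableSet S)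
    (hG : G =ᵐ[volume.restrict S] G') (t : ℝ) :
    volume {z ∈ S | t < ‖G z‖} = volume {z ∈ S | t < ‖G' z‖} := by
  refine measure_congr ?_
  have h1 := (ae_restrict_iff' hS).1 hG
  filter_upwards [h1] with z hz
  refine propext ?_
  constructor
  · rintro ⟨h2, h3⟩
    exact ⟨h2, by rw [← hz h2]; exact h3⟩
  · rintro ⟨h2, h3⟩
    exact ⟨h2, by rw [hz h2]; exact h3⟩

/-- Near a point of `K`. -/
theorem weak_on (hΩ : IsOpen Ω) (hg : MemLp g ⊤ (volume.restrict Ω))
    (hmin : IsMinimizer Ω g u G K) (hred : IsReduced Ω K) (hx : x ∈ K) :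
    ∃ R : ℝ, 0 < R ∧ (∃ A : ℝ≥0∞, A < ⊤ ∧ ∀ t : ℝ, 0 < t →
      volume {z ∈ ball x R \ K | t < ‖G z‖} ≤ A * ENNReal.ofReal (t ^ 4)⁻¹) ∧
      ∀ p : ℝ, 0 < p → p < 4 → MemLp G (ENNReal.ofReal p) (volume.restrict (ball x R \ K)) := by
  obtain ⟨g', u', G', M, R₀, h, hG, hl, -⟩ := exists_type hΩ hg hmin hred hx
  obtain ⟨R, hR, hRR, ⟨A, hA, H1⟩, H2⟩ := weak_near h hx hl
  have hae := ae_near hG (ball_sub h hRR)
  refine ⟨R, hR, ⟨A, hA, fun t ht => ?_⟩, fun p hp hp4 => (memLp_congr_ae hae).2 (H2 p hp hp4)⟩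
  rw [volume_set_congr (measurableSet_near h hRR) hae]
  exact H1 t ht

/-- The gradient is bounded near the points off `K`. -/
theorem bounded_off (hΩ : IsOpen Ω) (hg : MemLp g ⊤ (volume.restrict Ω))
    (hmin : IsMinimizer Ω g u G K) (hx : x ∈ Ω \ K) :
    ∃ R C : ℝ, 0 < R ∧ 0 < C ∧ (∀ᵐ z ∂(volume.restrict (ball x R)), ‖G z‖ ≤ C) ∧
      ∀ p : ℝ≥0∞, MemLp G p (volume.restrict (ball x R)) := by
  obtain ⟨M, g', u₁, G₁, N, hG₁, -, -⟩ := H861.normalize' hΩ hg hmin
  obtain ⟨R, hR, hRΩ⟩ := Metric.nhds_basis_closedBall.mem_iff.1 (N.isOpen.mem_nhds hx.1)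
  obtain ⟨R₁, M₁, h1, h2, h3, h4⟩ := N.exists_bounded hR hRΩ
  obtain ⟨u', G', N', hc1, hG', hb', -, hGG⟩ := Q1.nice_rep N (x := x) (R₁ := R₁) h3 h4
  have hU : IsOpen (Ω \ K) := hmin.1.isOpen_diff hΩ
  obtain ⟨r, hr, hrU⟩ := Metric.nhds_basis_closedBall.mem_iff.1 (hU.mem_nhds hx)
  have hcont : ContinuousOn G' (closedBall x r) :=
    ((GM.continuousOn_grad hU hc1).mono hrU).congr fun z hz => hG' z (hrU hz)
  obtain ⟨C, hC⟩ := (isCompact_closedBall x r).exists_bound_of_continuousOn hcont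
  have hGG' : G =ᵐ[volume.restrict (ball x r)] G' := by
    have e1 := ae_mono (Measure.restrict_mono (ball_subset_closedBall.trans hrU) le_rfl) hG₁
    filter_upwards [e1, ae_restrict_of_ae hGG] with z h5 h6
    exact h5.trans h6
  have hb : ∀ᵐ z ∂(volume.restrict (ball x r)), ‖G z‖ ≤ max C 1 := by
    filter_upwards [ae_restrict_mem measurableSet_ball, hGG'] with z hz h5
    rw [h5]
    exact (hC z (ball_subset_closedBall hz)).trans (le_max_left _ _)
  refine ⟨r, max C 1, hr, by positivity, hb, fun p => ?_⟩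
  have : IsFiniteMeasure (volume.restrict (ball x r)) := ⟨by
    rw [Measure.restrict_apply_univ]; exact measure_ball_lt_top⟩
  exact MemLp.of_bound ((aestronglyMeasurable_congr hGG').2 N'.Gm.aestronglyMeasurable) _ hb

/-- **Higher integrability**: the gradient is in `L^p`, up to `K`, for all `p < 4`. -/
theorem memLp_compact (hΩ : IsOpen Ω) (hg : MemLp g ⊤ (volume.restrict Ω))
    (hmin : IsMinimizer Ω g u G K) (hred : IsReduced Ω K) {C : Set ℂ} (hC : IsCompact C)
    (hCΩ : C ⊆ Ω) {p : ℝ≥0∞} (hp : p < 4) : MemLp G p (volume.restrict (C \ K)) := by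
  have hfin : ∀ {E : Set ℂ}, E ⊆ C → IsFiniteMeasure (volume.restrict (E \ K)) := fun hE => ⟨by
    rw [Measure.restrict_apply_univ]
    exact (measure_mono (sdiff_subset.trans hE)).trans_lt hC.measure_lt_top⟩
  -- a real exponent
  obtain ⟨q, hq0, hq4, hpq⟩ : ∃ q : ℝ, 0 < q ∧ q < 4 ∧ p ≤ ENNReal.ofReal q := by
    refine ⟨max p.toReal 1, by positivity, max_lt ?_ (by norm_num), ?_⟩
    · have := ENNReal.toReal_strict_mono (by norm_num) hp
      simpa using this
    · rw [← ENNReal.ofReal_toReal (hp.trans_le le_top).ne]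
      exact ENNReal.ofReal_le_ofReal (by simp)
  have key : MemLp G (ENNReal.ofReal q) (volume.restrict (C \ K)) := by
    refine hC.induction_on (p := fun E => MemLp G (ENNReal.ofReal q) (volume.restrict (E \ K)))
      ?_ ?_ ?_ ?_
    · simp
    · intro s t hst ht
      exact ht.mono_measure (Measure.restrict_mono (sdiff_subset_sdiff_left hst) le_rfl)
    · intro s t hs ht
      have e : (s ∪ t) \ K = s \ K ∪ t \ K := union_sdiff_distrib
      rw [e]
      have h1 := hs.2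
      have h2 := ht.2
      have hq : ENNReal.ofReal q ≠ 0 := by simpa using hq0
      refine ⟨(aestronglyMeasurable_union_iff).2 ⟨hs.1, ht.1⟩, ?_⟩
      rw [eLpNorm_lt_top_iff_lintegral_rpow_enorm_lt_top hq ENNReal.ofReal_ne_top] at h1 h2 ⊢
      exact (lintegral_union_le _ _ _).trans_lt (ENNReal.add_lt_top.2 ⟨h1, h2⟩)
    · intro y hy
      by_cases hyK : y ∈ K
      · obtain ⟨R, hR, -, H⟩ := weak_on hΩ hg hmin hred hyK
        exact ⟨ball y R, mem_nhdsWithin_of_mem_nhds (ball_mem_nhds y hR), H q hq0 hq4⟩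
      · obtain ⟨R, -, hR, -, -, H⟩ := bounded_off hΩ hg hmin ⟨hCΩ hy, hyK⟩
        exact ⟨ball y R, mem_nhdsWithin_of_mem_nhds (ball_mem_nhds y hR),
          (H _).mono_measure (Measure.restrict_mono sdiff_subset le_rfl)⟩
  have := hfin (Subset.refl C)
  exact key.mono_exponent hpq

/-- **Weak `L^4`**. -/
theorem weak_compact (hΩ : IsOpen Ω) (hg : MemLp g ⊤ (volume.restrict Ω))
    (hmin : IsMinimizer Ω g u G K) (hred : IsReduced Ω K) {C : Set ℂ} (hC : IsCompact C)
    (hCΩ : C ⊆ Ω) : ∃ A : ℝ, ∀ t > 0,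
      volume {z ∈ C \ K | t < ‖G z‖} ≤ ENNReal.ofReal (A / t ^ 4) := by
  suffices hs : ∃ A : ℝ≥0∞, A < ⊤ ∧ ∀ t : ℝ, 0 < t →
      volume {z ∈ C \ K | t < ‖G z‖} ≤ A * ENNReal.ofReal (t ^ 4)⁻¹ by
    obtain ⟨A, hA, H⟩ := hs
    refine ⟨A.toReal, fun t ht => (H t ht).trans (le_of_eq ?_)⟩
    rw [div_eq_mul_inv, ENNReal.ofReal_mul ENNReal.toReal_nonneg, ENNReal.ofReal_toReal hA.ne]
  refine hC.induction_on (p := fun E => ∃ A : ℝ≥0∞, A < ⊤ ∧ ∀ t : ℝ, 0 < t →
      volume {z ∈ E \ K | t < ‖G z‖} ≤ A * ENNReal.ofReal (t ^ 4)⁻¹) ?_ ?_ ?_ ?_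
  · exact ⟨0, ENNReal.zero_lt_top, fun t _ => by simp⟩
  · rintro s t hst ⟨A, hA, H⟩
    refine ⟨A, hA, fun r hr => le_trans (measure_mono (t := {z ∈ t \ K | r < ‖G z‖}) ?_) (H r hr)⟩
    exact fun z hz => ⟨⟨hst hz.1.1, hz.1.2⟩, hz.2⟩
  · rintro s t ⟨A, hA, H⟩ ⟨A', hA', H'⟩
    refine ⟨A + A', ENNReal.add_lt_top.2 ⟨hA, hA'⟩, fun r hr => ?_⟩
    rw [add_mul]
    refine le_trans (measure_mono (t := {z ∈ s \ K | r < ‖G z‖} ∪ {z ∈ t \ K | r < ‖G z‖})
      ?_) ((measure_union_le _ _).trans (add_le_add (H r hr) (H' r hr)))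
    rintro z ⟨⟨hz1 | hz1, hz2⟩, hz3⟩
    · exact Or.inl ⟨⟨hz1, hz2⟩, hz3⟩
    · exact Or.inr ⟨⟨hz1, hz2⟩, hz3⟩
  · intro y hy
    by_cases hyK : y ∈ K
    · obtain ⟨R, hR, H, -⟩ := weak_on hΩ hg hmin hred hyK
      exact ⟨ball y R, mem_nhdsWithin_of_mem_nhds (ball_mem_nhds y hR), H⟩
    · obtain ⟨R, B, hR, hB, H, -⟩ := bounded_off hΩ hg hmin ⟨hCΩ hy, hyK⟩
      refine ⟨ball y R, mem_nhdsWithin_of_mem_nhds (ball_mem_nhds y hR),
        volume (ball y R) * ENNReal.ofReal (B ^ 4),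
        ENNReal.mul_lt_top measure_ball_lt_top ENNReal.ofReal_lt_top, fun t ht => ?_⟩
      rcases lt_or_ge t B with htB | htB
      · refine (measure_mono (t := ball y R) fun z hz => hz.1.1).trans ?_
        rw [mul_assoc, ← ENNReal.ofReal_mul (by positivity)]
        refine le_mul_of_one_le_right (zero_le) ?_
        rw [ENNReal.one_le_ofReal, ← div_eq_mul_inv, one_le_div (by positivity)]
        exact pow_le_pow_left₀ ht.le htB.le 4
      · have h0 : volume {z ∈ ball y R \ K | t < ‖G z‖} = 0 := by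
          have h1 := (ae_restrict_iff' measurableSet_ball).1 H
          refine measure_mono_null (fun z hz => ?_) h1
          intro hcon
          exact absurd (hcon hz.1.1) (not_le.2 (htB.trans_lt hz.2))
        rw [h0]
        exact zero_le

/-- Near the points of `K` which are not crack-tips the gradient is better than `L^4`. -/
theorem strong_on (hΩ : IsOpen Ω) (hg : MemLp g ⊤ (volume.restrict Ω))
    (hmin : IsMinimizer Ω g u G K) (hred : IsReduced Ω K) (hx : x ∈ K)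
    (ht : ¬ H861.IsTip Ω K x) : ∃ R : ℝ, 0 < R ∧ ∃ p : ℝ≥0∞, 4 < p ∧
      MemLp G p (volume.restrict (ball x R \ K)) := by
  obtain ⟨g', u', G', M, R₀, h, hG, hl, hE⟩ := exists_type hΩ hg hmin hred hx
  obtain ⟨C, s₁, hC, hs₁, hE⟩ := hE.resolve_right ht
  obtain ⟨R, hR, hRR, H⟩ := strong_near h hx hl hC hs₁ hE
  refine ⟨R, hR, ENNReal.ofReal 5, ?_, (memLp_congr_ae (ae_near hG (ball_sub h hRR))).2
    (H 5 (by norm_num) (by norm_num))⟩
  have : (4 : ℝ≥0∞) = ENNReal.ofReal 4 := by simp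
  rw [this]
  exact (ENNReal.ofReal_lt_ofReal_iff (by norm_num)).2 (by norm_num)

/-- Near a crack-tip the gradient is not in `L^4`. -/
theorem not_memLp_tip (hΩ : IsOpen Ω) (hg : MemLp g ⊤ (volume.restrict Ω))
    (hmin : IsMinimizer Ω g u G K) (hred : IsReduced Ω K) (hx : x ∈ K)
    (ht : H861.IsTip Ω K x) {R : ℝ} (hR : 0 < R) :
    ¬ MemLp G 4 (volume.restrict (ball x R \ K)) := by
  intro hcon
  have hdens : H861.HasDensities G K x 1 1 := by
    rcases H861.local_structure hΩ hg hmin hred hx with h | h | h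
    · exact absurd ht h.1.not_tip
    · exact h.2
    · exact absurd h.1 ht.not_triple
  have hlim := hdens.2
  have hπ := Real.pi_pos
  -- integrability
  have h4 : Integrable (fun z => ‖G z‖ ^ 4) (volume.restrict (ball x R \ K)) := by
    have := hcon.integrable_norm_rpow (by norm_num) (by norm_num)
    refine this.congr (Eventually.of_forall fun z => ?_)
    show ‖G z‖ ^ (4 : ℝ≥0∞).toReal = ‖G z‖ ^ 4
    rw [show (4 : ℝ≥0∞).toReal = ((4 : ℕ) : ℝ) by simp, Real.rpow_natCast]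
  have hfin : IsFiniteMeasure (volume.restrict (ball x R \ K)) := ⟨by
    rw [Measure.restrict_apply_univ]
    exact (measure_mono sdiff_subset).trans_lt measure_ball_lt_top⟩
  have hKm : MeasurableSet K := hmin.1.measurableSet hΩ
  -- the integral of the fourth power over small disks tends to `0`
  have hz : Tendsto (fun r : ℝ => ∫ z in closedBall x r, ‖G z‖ ^ 4
      ∂(volume.restrict (ball x R \ K))) (𝓝[>] 0) (𝓝 0) := by
    refine h4.tendsto_setIntegral_nhds_zero ?_
    have h1 : Tendsto (fun r : ℝ => ENNReal.ofReal π * ENNReal.ofReal ((2 * r) ^ (2 : ℝ)))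
        (𝓝[>] 0) (𝓝 0) := by
      have h2 : Tendsto (fun r : ℝ => (2 * r) ^ (2 : ℝ)) (𝓝[>] 0) (𝓝 0) := by
        have h3 : Continuous fun r : ℝ => (2 * r) ^ (2 : ℝ) := by
          simp_rw [Real.rpow_two]
          fun_prop
        have := h3.tendsto 0
        simp only [mul_zero, Real.rpow_two, ne_eq, OfNat.ofNat_ne_zero, not_false_eq_true,
          zero_pow] at this
        simp_rw [Real.rpow_two]
        exact this.mono_left nhdsWithin_le_nhds
      have h3 := ENNReal.tendsto_ofReal h2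
      rw [ENNReal.ofReal_zero] at h3
      have h4 := ENNReal.Tendsto.const_mul (a := ENNReal.ofReal π) h3 (Or.inr ENNReal.ofReal_ne_top)
      rwa [mul_zero] at h4
    refine tendsto_of_tendsto_of_tendsto_of_le_of_le' tendsto_const_nhds h1
      (Eventually.of_forall fun _ => zero_le) ?_
    filter_upwards [self_mem_nhdsWithin] with r hr
    have hr0 : (0 : ℝ) < r := hr
    refine (Measure.restrict_apply_le _ _).trans ?_
    exact (measure_mono (closedBall_subset_ball (by linarith))).trans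
      (volume_ball_le x (by positivity))
  -- comparison
  obtain ⟨r, hr0, hrR, hr1, hr2⟩ : ∃ r : ℝ, 0 < r ∧ r < R ∧
      1 / 2 < (∫ z in closedBall x r \ K, ‖G z‖ ^ 2) / r ∧
      ∫ z in closedBall x r, ‖G z‖ ^ 4 ∂(volume.restrict (ball x R \ K)) < 1 / 100 := by
    have e1 := hlim.eventually (lt_mem_nhds (show (1 / 2 : ℝ) < 1 by norm_num))
    have e2 := hz.eventually (gt_mem_nhds (show (0 : ℝ) < 1 / 100 by norm_num))
    obtain ⟨r, h1, h2, h3⟩ := (e1.and (e2.and (Ioo_mem_nhdsGT hR))).exists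
    exact ⟨r, h3.1, h3.2, h1, h2⟩
  have hsub : closedBall x r \ K ⊆ ball x R \ K :=
    sdiff_subset_sdiff_left (closedBall_subset_ball hrR)
  have hm : MeasurableSet (closedBall x r \ K) := isClosed_closedBall.measurableSet.diff hKm
  have e3 : ∫ z in closedBall x r, ‖G z‖ ^ 4 ∂(volume.restrict (ball x R \ K)) =
      ∫ z in closedBall x r \ K, ‖G z‖ ^ 4 := by
    rw [Measure.restrict_restrict isClosed_closedBall.measurableSet]
    congr 2
    ext z
    exact ⟨fun h => ⟨h.1, h.2.2⟩, fun h => ⟨h.1, closedBall_subset_ball hrR h.1, h.2⟩⟩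
  rw [e3] at hr2
  have hi4 : IntegrableOn (fun z => ‖G z‖ ^ 4) (closedBall x r \ K) :=
    IntegrableOn.mono_set h4 hsub
  have hvol : (volume : Measure ℂ).real (closedBall x r \ K) ≤ 4 * r ^ 2 := by
    refine ENNReal.toReal_le_of_le_ofReal (by positivity) ?_
    refine (measure_mono sdiff_subset).trans ?_
    rw [Complex.volume_closedBall, ← ENNReal.ofReal_pow hr0.le, mul_comm,
      ENNReal.ofReal_mul (by norm_num)]
    gcongr
    rw [← ENNReal.ofReal_coe_nnreal, NNReal.coe_real_pi]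
    exact ENNReal.ofReal_le_ofReal Real.pi_le_four
  have hfin' : volume (closedBall x r \ K) ≠ ⊤ :=
    ((measure_mono sdiff_subset).trans_lt measure_closedBall_lt_top).ne
  have hc : IntegrableOn (fun _ : ℂ => 1 / (20 * r)) (closedBall x r \ K) :=
    integrableOn_const hfin'
  have hle : ∫ z in closedBall x r \ K, ‖G z‖ ^ 2 ≤
      ∫ z in closedBall x r \ K, (1 / (20 * r) + 5 * r * ‖G z‖ ^ 4) := by
    refine integral_mono_of_nonneg (Eventually.of_forall fun z => by positivity)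
      (hc.add (hi4.const_mul (5 * r))) (Eventually.of_forall fun z => ?_)
    show ‖G z‖ ^ 2 ≤ 1 / (20 * r) + 5 * r * ‖G z‖ ^ 4
    have h5 : 0 ≤ 5 * r * (‖G z‖ ^ 2 - 1 / (10 * r)) ^ 2 := by positivity
    have h6 : 5 * r * (‖G z‖ ^ 2 - 1 / (10 * r)) ^ 2 =
        5 * r * ‖G z‖ ^ 4 - ‖G z‖ ^ 2 + 1 / (20 * r) := by
      field_simp
      ring
    linarith
  rw [integral_add hc (hi4.const_mul (5 * r)), integral_const_mul, setIntegral_const,
    smul_eq_mul] at hle
  rw [lt_div_iff₀ hr0] at hr1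
  have h7 : (volume : Measure ℂ).real (closedBall x r \ K) * (1 / (20 * r)) ≤ r / 5 := by
    calc (volume : Measure ℂ).real (closedBall x r \ K) * (1 / (20 * r))
        ≤ 4 * r ^ 2 * (1 / (20 * r)) := by gcongr
      _ = r / 5 := by field_simp; norm_num
  have h8 : 5 * r * (∫ z in closedBall x r \ K, ‖G z‖ ^ 4) ≤ 5 * r * (1 / 100) := by gcongr
  linarith

/-- `K` has no crack-tip if and only if the gradient is locally in `L^4`, up to `K`. -/
theorem tip_iff (hΩ : IsOpen Ω) (hg : MemLp g ⊤ (volume.restrict Ω))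
    (hmin : IsMinimizer Ω g u G K) (hred : IsReduced Ω K) :
    (∀ x ∈ K, ¬ H861.IsTip Ω K x) ↔
      ∀ C ⊆ Ω, IsCompact C → MemLp G 4 (volume.restrict (C \ K)) := by
  constructor
  · intro hno C hCΩ hC
    refine hC.induction_on (p := fun E => MemLp G 4 (volume.restrict (E \ K))) ?_ ?_ ?_ ?_
    · simp
    · intro s t hst ht
      exact ht.mono_measure (Measure.restrict_mono (sdiff_subset_sdiff_left hst) le_rfl)
    · intro s t hs ht
      have e : (s ∪ t) \ K = s \ K ∪ t \ K := union_sdiff_distrib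
      rw [e]
      have h1 := hs.2
      have h2 := ht.2
      refine ⟨(aestronglyMeasurable_union_iff).2 ⟨hs.1, ht.1⟩, ?_⟩
      rw [eLpNorm_lt_top_iff_lintegral_rpow_enorm_lt_top (by norm_num) (by norm_num)] at h1 h2 ⊢
      exact (lintegral_union_le _ _ _).trans_lt (ENNReal.add_lt_top.2 ⟨h1, h2⟩)
    · intro y hy
      by_cases hyK : y ∈ K
      · obtain ⟨R, hR, p, hp, H⟩ := strong_on hΩ hg hmin hred hyK (hno y hyK)
        have hfin : IsFiniteMeasure (volume.restrict (ball y R \ K)) := ⟨by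
          rw [Measure.restrict_apply_univ]
          exact (measure_mono sdiff_subset).trans_lt measure_ball_lt_top⟩
        exact ⟨ball y R, mem_nhdsWithin_of_mem_nhds (ball_mem_nhds y hR), H.mono_exponent hp.le⟩
      · obtain ⟨R, -, hR, -, -, H⟩ := bounded_off hΩ hg hmin ⟨hCΩ hy, hyK⟩
        exact ⟨ball y R, mem_nhdsWithin_of_mem_nhds (ball_mem_nhds y hR),
          (H _).mono_measure (Measure.restrict_mono sdiff_subset le_rfl)⟩
  · intro H x hx ht
    obtain ⟨r, hr, hrΩ, -⟩ := id ht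
    refine not_memLp_tip hΩ hg hmin hred hx ht hr ?_
    exact (H _ hrΩ (isCompact_closedBall x r)).mono_measure
      (Measure.restrict_mono (sdiff_subset_sdiff_left ball_subset_closedBall) le_rfl)

end Vale.Agent.P128.H261
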