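import Vale.Agent.P128.H861.Main
import Vale.Agent.P128.H261.Int

/-! Decay of the energy in flat zones with the exponent `9 / 5` (as in `decay_ode`, `mn_decay`, where
the exponent is `3 / 2`). -/

set_option linter.all false

open MeasureTheory Set Metric Filter ComplexConjugate
open scoped ENNReal NNReal Topology Real ContDiff

namespace Vale.Agent.P128.H261

open Vale.Agent.P128 Vale.Agent.P128.Q1

theorem ode_pow : (2 : ℝ) ^ (9 / 5 : ℝ) ≤ 4 := by
  calc (2 : ℝ) ^ (9 / 5 : ℝ) ≤ (2 : ℝ) ^ (2 : ℝ) :=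
        Real.rpow_le_rpow_of_exponent_le (by norm_num) (by norm_num)
    _ = 4 := by norm_num

/-- one dyadic step -/
theorem ode_step {E q : ℝ → ℝ} {ρ κ A η : ℝ} {B : Set ℝ} (hκ0 : 0 < κ)
    (hκ : κ ≤ 51 / 100) (hA : 0 ≤ A) (hη : η ≤ 1 / 100)
    (hE0 : ∀ t, 0 < t → t ≤ ρ → 0 ≤ E t)
    (hq0 : ∀ t, 0 < t → t ≤ ρ → 0 ≤ q t)
    (hq : ∀ s t, 0 < s → s ≤ t → t ≤ ρ → IntervalIntegrable q volume s t ∧
      ∫ r in s..t, q r = E t - E s)
    (hB : ∀ r, 0 < r → r ≤ ρ → volume (B ∩ Ioo 0 r) ≤ ENNReal.ofReal (η * r))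
    (h : ∀ᵐ t : ℝ, t ∈ Ioo 0 ρ → t ∉ B → E t ≤ κ * (t * q t) + A * t ^ 2)
    {r : ℝ} (hr : 0 < r) (hrρ : r ≤ ρ) (hbig : 50 * A * r ^ 2 < E (r / 2)) :
    E (r / 2) ≤ (1 / 2 : ℝ) ^ (9 / 5 : ℝ) * E r := by
  have hr2 : 0 < r / 2 := by linarith only [hr]
  have hab : r / 2 < r := by linarith only [hr]
  set Z : Set ℝ := toMeasurable volume (B ∩ Ioo 0 r) with hZ
  have hZm : MeasurableSet Z := measurableSet_toMeasurable _ _
  have hZv : volume Z ≤ ENNReal.ofReal (η * r) := by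
    rw [hZ, measure_toMeasurable]
    exact hB r hr hrρ
  have hZf : volume Z ≠ ⊤ := ne_top_of_le_ne_top ENNReal.ofReal_ne_top hZv
  have hpos : ∀ s ∈ Icc (r / 2) r, 0 < E s := by
    intro s hs
    have h1 := lineOde_mono hq0 hq hr2 hs.1 (hs.2.trans hrρ)
    have h2 : 0 ≤ 50 * A * r ^ 2 := by positivity
    linarith only [h1, h2, hbig]
  set γ : ℝ → ℝ := fun t => 48 / 25 * (t⁻¹ - 2 / r * Z.indicator (fun _ => (1 : ℝ)) t) with hγ
  have hi1 : IntervalIntegrable (fun t : ℝ => t⁻¹) volume (r / 2) r := by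
    refine ContinuousOn.intervalIntegrable ?_
    rw [uIcc_of_le hab.le]
    exact continuousOn_inv₀.mono fun s hs => (lt_of_lt_of_le hr2 hs.1).ne'
  have hi2 : Integrable (Z.indicator (fun _ => (1 : ℝ))) volume :=
    (integrable_indicator_iff hZm).2 (integrableOn_const hZf)
  have hγi : IntervalIntegrable γ volume (r / 2) r :=
    (hi1.sub (hi2.intervalIntegrable.const_mul (2 / r))).const_mul (48 / 25)
  have hZr : volume.real Z ≤ r / 100 := by
    refine ENNReal.toReal_le_of_le_ofReal (by positivity) (hZv.trans ?_)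
    refine ENNReal.ofReal_le_ofReal ?_
    have := mul_le_mul_of_nonneg_right hη hr.le
    linarith only [this]
  have hI : ∫ t in (r / 2)..r, Z.indicator (fun _ => (1 : ℝ)) t ≤ r / 100 := by
    rw [intervalIntegral.integral_of_le hab.le]
    refine (setIntegral_le_integral hi2 (Eventually.of_forall fun t =>
      indicator_nonneg (fun _ _ => zero_le_one) t)).trans ?_
    rw [integral_indicator_const _ hZm]
    simpa using hZr
  have hlow : 9 / 5 * Real.log 2 ≤ ∫ t in (r / 2)..r, γ t := by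
    have e : ∫ t in (r / 2)..r, γ t = 48 / 25 * (Real.log 2 -
        2 / r * ∫ t in (r / 2)..r, Z.indicator (fun _ => (1 : ℝ)) t) := by
      rw [hγ, intervalIntegral.integral_const_mul, intervalIntegral.integral_sub hi1
        (hi2.intervalIntegrable.const_mul (2 / r)), intervalIntegral.integral_const_mul,
        integral_inv_of_pos hr2 hr]
      congr 3
      field_simp
    rw [e]
    have h1 : 2 / r * ∫ t in (r / 2)..r, Z.indicator (fun _ => (1 : ℝ)) t ≤ 1 / 50 := by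
      calc _ ≤ 2 / r * (r / 100) := mul_le_mul_of_nonneg_left hI (by positivity)
        _ = 1 / 50 := by
          field_simp
          norm_num
    have h2 := Real.log_two_gt_d9
    linarith only [h2, h1]
  have hlg := log_growth (V := E) (q := q) (γ := γ) hab hpos (hq (r / 2) r hr2 hab.le hrρ).1
    (fun s hs => hq0 s (hr2.trans_le hs.1) (hs.2.trans hrρ))
    (fun s t hs hst ht => (hq s t (hr2.trans_le hs) hst (ht.trans hrρ)).2.le) hγi ?_
  · have hr1 : 0 < E r := hpos r ⟨hab.le, le_rfl⟩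
    have hr0 : 0 < E (r / 2) := hpos (r / 2) ⟨le_rfl, hab.le⟩
    have h1 : Real.log (E (r / 2)) ≤ Real.log ((1 / 2 : ℝ) ^ (9 / 5 : ℝ) * E r) := by
      rw [Real.log_mul (by positivity) hr1.ne', Real.log_rpow (by norm_num), one_div,
        Real.log_inv]
      linarith only [hlow, hlg]
    exact (Real.log_le_log_iff hr0 (by positivity)).1 h1
  · filter_upwards [h] with t ht htI
    have ht0 : 0 < t := hr2.trans htI.1
    have hE : 0 < E t := hpos t (Ioo_subset_Icc_self htI)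
    have hqt : 0 ≤ q t := hq0 t ht0 (htI.2.le.trans hrρ)
    by_cases hZt : t ∈ Z
    · have h1 : t⁻¹ ≤ 2 / r := by
        rw [inv_eq_one_div, div_le_div_iff₀ ht0 hr]
        linarith only [htI.1]
      have h2 : 0 ≤ q t / E t := div_nonneg hqt hE.le
      simp only [hγ, indicator_of_mem hZt]
      linarith only [h2, h1]
    · have htB : t ∉ B := fun hb => hZt (subset_toMeasurable _ _ ⟨hb, ht0, htI.2⟩)
      have h1 := ht ⟨ht0, htI.2.trans_le hrρ⟩ htB
      have h2 : 50 * A * t ^ 2 ≤ E t := by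
        have h3 := lineOde_mono hq0 hq hr2 htI.1.le (htI.2.le.trans hrρ)
        have h4 : t ^ 2 ≤ r ^ 2 := pow_le_pow_left₀ ht0.le htI.2.le 2
        have h5 : 50 * A * t ^ 2 ≤ 50 * A * r ^ 2 := by gcongr
        linarith only [h3, h5, hbig]
      have h3 : κ * (t * q t) ≤ 51 / 100 * (t * q t) :=
        mul_le_mul_of_nonneg_right hκ (mul_nonneg ht0.le hqt)
      simp only [hγ, indicator_of_notMem hZt, mul_zero, sub_zero]
      rw [inv_eq_one_div, ← mul_div_assoc, mul_one, div_le_div_iff₀ ht0 hE]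
      linarith only [h1, h2, h3, hE]

theorem ode_decay {E q : ℝ → ℝ} {ρ κ A η : ℝ} {B : Set ℝ} (hρ : 0 < ρ) (hκ0 : 0 < κ)
    (hκ : κ ≤ 51 / 100) (hA : 0 ≤ A) (hη : η ≤ 1 / 100)
    (hE0 : ∀ t, 0 < t → t ≤ ρ → 0 ≤ E t)
    (hq0 : ∀ t, 0 < t → t ≤ ρ → 0 ≤ q t)
    (hq : ∀ s t, 0 < s → s ≤ t → t ≤ ρ → IntervalIntegrable q volume s t ∧
      ∫ r in s..t, q r = E t - E s)
    (hB : ∀ r, 0 < r → r ≤ ρ → volume (B ∩ Ioo 0 r) ≤ ENNReal.ofReal (η * r))
    (h : ∀ᵐ t : ℝ, t ∈ Ioo 0 ρ → t ∉ B → E t ≤ κ * (t * q t) + A * t ^ 2) :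
    ∀ r, 0 < r → r ≤ ρ → E r ≤ 4 * (r / ρ) ^ (9 / 5 : ℝ) * (E ρ + 200 * A * ρ ^ 2) := by
  have hC : 0 ≤ E ρ + 200 * A * ρ ^ 2 := by
    have h1 := hE0 ρ hρ le_rfl
    have h2 : 0 ≤ 200 * A * ρ ^ 2 := by positivity
    linarith only [h1, h2]
  -- dyadic points
  have key : ∀ k : ℕ, E ((1 / 2 : ℝ) ^ k * ρ) ≤
      ((1 / 2 : ℝ) ^ k) ^ (9 / 5 : ℝ) * (E ρ + 200 * A * ρ ^ 2) := by
    intro k
    induction k with
    | zero =>
      have h2 : 0 ≤ 200 * A * ρ ^ 2 := by positivity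
      simp only [pow_zero, one_mul, Real.one_rpow]
      linarith only [h2]
    | succ k ih =>
      set s : ℝ := (1 / 2 : ℝ) ^ k with hs
      have hs0 : 0 < s := by positivity
      have hs1 : s ≤ 1 := pow_le_one₀ (by norm_num) (by norm_num)
      have hsr : 0 < s * ρ := mul_pos hs0 hρ
      have hsρ : s * ρ ≤ ρ := mul_le_of_le_one_left hρ.le hs1
      have he : (1 / 2 : ℝ) ^ (k + 1) = 1 / 2 * s := by rw [pow_succ]; ring
      have he2 : (1 / 2 : ℝ) ^ (k + 1) * ρ = s * ρ / 2 := by rw [he]; ring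
      rw [he2, he, Real.mul_rpow (by norm_num) hs0.le]
      by_cases hbig : 50 * A * (s * ρ) ^ 2 < E (s * ρ / 2)
      · have h1 := ode_step hκ0 hκ hA hη hE0 hq0 hq hB h hsr hsρ hbig
        have h2 : 0 ≤ (1 / 2 : ℝ) ^ (9 / 5 : ℝ) := by positivity
        have h3 := mul_le_mul_of_nonneg_left ih h2
        linarith only [h1, h3]
      · rw [not_lt] at hbig
        have h1 : s ^ 2 ≤ s ^ (9 / 5 : ℝ) := by
          have := Real.rpow_le_rpow_of_exponent_ge hs0 hs1 (show (9 / 5 : ℝ) ≤ 2 by norm_num)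
          rwa [Real.rpow_two] at this
        have h2 : 1 / 4 ≤ (1 / 2 : ℝ) ^ (9 / 5 : ℝ) := by
          rw [Real.div_rpow (by norm_num) (by norm_num), Real.one_rpow]
          exact one_div_le_one_div_of_le (by positivity) ode_pow
        have h3 : 0 ≤ 50 * A * ρ ^ 2 := by positivity
        have h4 : 0 ≤ s ^ (9 / 5 : ℝ) := by positivity
        calc E (s * ρ / 2) ≤ 50 * A * (s * ρ) ^ 2 := hbig
          _ = s ^ 2 * (50 * A * ρ ^ 2) := by ring
          _ ≤ s ^ (9 / 5 : ℝ) * (50 * A * ρ ^ 2) := mul_le_mul_of_nonneg_right h1 h3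
          _ = (1 / 4) * s ^ (9 / 5 : ℝ) * (200 * A * ρ ^ 2) := by ring
          _ ≤ (1 / 2 : ℝ) ^ (9 / 5 : ℝ) * s ^ (9 / 5 : ℝ) * (200 * A * ρ ^ 2) := by
              have h5 : 0 ≤ 200 * A * ρ ^ 2 := by positivity
              gcongr
          _ ≤ (1 / 2 : ℝ) ^ (9 / 5 : ℝ) * s ^ (9 / 5 : ℝ) * (E ρ + 200 * A * ρ ^ 2) := by
              have h6 := hE0 ρ hρ le_rfl
              gcongr
              linarith only [h6]
  intro r hr hrρ
  obtain ⟨k, hk1, hk2⟩ := exists_nat_pow_near_of_lt_one (div_pos hr hρ)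
    ((div_le_one hρ).2 hrρ) (show (0 : ℝ) < 1 / 2 by norm_num) (by norm_num)
  have hle : r ≤ (1 / 2 : ℝ) ^ k * ρ := by
    rwa [div_le_iff₀ hρ] at hk2
  have hkρ : (1 / 2 : ℝ) ^ k * ρ ≤ ρ :=
    mul_le_of_le_one_left hρ.le (pow_le_one₀ (by norm_num) (by norm_num))
  have h1 := lineOde_mono hq0 hq hr hle hkρ
  have h2 := key k
  have h3 : ((1 / 2 : ℝ) ^ k) ^ (9 / 5 : ℝ) ≤ 4 * (r / ρ) ^ (9 / 5 : ℝ) := by
    have h4 : (1 / 2 : ℝ) ^ k ≤ 2 * (r / ρ) := by
      rw [pow_succ] at hk1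
      linarith only [hk1]
    calc ((1 / 2 : ℝ) ^ k) ^ (9 / 5 : ℝ) ≤ (2 * (r / ρ)) ^ (9 / 5 : ℝ) :=
          Real.rpow_le_rpow (by positivity) h4 (by norm_num)
      _ = 2 ^ (9 / 5 : ℝ) * (r / ρ) ^ (9 / 5 : ℝ) :=
          Real.mul_rpow (by norm_num) (div_pos hr hρ).le
      _ ≤ 4 * (r / ρ) ^ (9 / 5 : ℝ) := by
          refine mul_le_mul_of_nonneg_right ode_pow ?_
          have := div_pos hr hρ
          positivity
  exact (h1.trans h2).trans (mul_le_mul_of_nonneg_right h3 hC)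

/-- energy decay -/
theorem zone_decay {Ω K : Set ℂ} {g u : ℂ → ℝ} {G : ℂ → ℂ} {M : ℝ}
    (N : Nice Ω g u G K M) {y₀ : ℂ} {ρ δ : ℝ} (Z : FlatZone K y₀ ρ δ) (hδ : δ ≤ 1 / 1000)
    (hΩ : closedBall y₀ (2 * ρ) ⊆ Ω) (hub : ∀ z ∈ ball y₀ (2 * ρ), |u z| ≤ M)
    (hH : ∀ y ∈ K, dist y y₀ ≤ ρ → ∀ r, 0 < r → r ≤ ρ → Hn K y r ≤ (2 + 1 / 100) * r)
    {y : ℂ} (hy : y ∈ K) (hyy : dist y y₀ ≤ ρ / 8) {r : ℝ} (hr : 0 < r) (hrρ : r ≤ ρ / 16) :
    En G y r ≤ 4 * (r / (ρ / 16)) ^ (9 / 5 : ℝ) *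
      (En G y (ρ / 16) + 200 * (6 * π * M ^ 2) * (ρ / 16) ^ 2) := by
  have hπ := Real.pi_pos
  have hρ := Z.pos
  have hsubB : closedBall y (ρ / 16) ⊆ Ω := by
    refine Subset.trans (closedBall_subset_closedBall' ?_) hΩ
    linarith only [hrρ, hr, hyy]
  have hub' : ∀ z ∈ ball y (ρ / 16), |u z| ≤ M := fun z hz =>
    hub z (ball_subset_ball' (by linarith only [hrρ, hr, hyy]) hz)
  refine ode_decay (E := En G y) (q := fun t => eT G y t + eN G y t) (ρ := ρ / 16)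
    (κ := 51 / 100) (A := 6 * π * M ^ 2) (η := 1 / 100)
    (B := {t | 3 ≤ (K ∩ sphere y t).encard}) (by positivity) (by norm_num) le_rfl (by positivity)
    le_rfl (fun t _ _ => En_nonneg G y t)
    (fun t ht _ => add_nonneg (eT_nonneg G y ht.le) (eN_nonneg G y ht.le))
    (fun s t hs hst _ => N.incr_E y hs hst) ?_ ?_ r hr hrρ
  · intro r hr hr1
    have h1 := Z.bad_le (hδ.trans (by norm_num)) N hΩ hy hyy hr hr1 (η := 1 / 100) (by norm_num)
      (hH y hy (hyy.trans (by linarith only [hr1, hr])) r hr (by linarith only [hr1, hr]))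
    refine le_trans (le_of_eq ?_) h1
    congr 1
    ext t
    simp only [mem_inter_iff, mem_setOf_eq]
    tauto
  · filter_upwards [bonnet_loc N hsubB hub'] with t ht htR htB
    have h2 := mn_encard htB
    obtain ⟨T, w₁, w₂, hT, hne, hTe, n1, n2, hK, hgap⟩ := Z.dirs hδ hy hyy htR.1 htR.2.le h2
    have hconn := Z.conn_ball (hδ.trans (by norm_num)) hy hyy htR.1 htR.2.le h2
    have hTne : T.Nonempty := by rw [hTe]; exact ⟨w₁, by simp⟩
    have h3 := ht htR hconn T hTne hT (51 / 50 * π) (by positivity) (by linarith only [hπ]) hgap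
    rw [mn_card hTe hne] at h3
    have e1 : 51 / 50 * π / (2 * π) = 51 / 100 := by field_simp; norm_num
    rw [e1] at h3
    push_cast at h3
    linarith only [h3]

end Vale.Agent.P128.H261
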